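import Vale.Agent.P156.H917.Edge3
import Vale.Agent.P156.H574.Herm

/-!
(E3'): the statements about the edge system in the form used by block F.
-/

open Matrix

namespace Vale.Agent.P156.H917

noncomputable section

variable {n q K : ℕ}

lemma adjE_isSymm {n : ℕ} (G : SimpleGraph (Fin n)) (a b : Fin n) : (adjE G a b).IsSymm := by
  ext x y
  rw [Matrix.transpose_apply]
  exact adjE_symm G a b y x

/-- the resolvent of the edge system is real symmetric at real energies. -/
theorem edgeMat_realSymm (ω : Om n q K) (E : ℝ) : A.RealSymm (edgeMat ω (E : ℂ)) :=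
  (A.resD_realSymm (adjE_isSymm _ _ _) _ _).submatrix _

lemma Jx_realSymm : A.RealSymm Jx := by
  constructor
  · ext i j
    fin_cases i <;> fin_cases j <;> simp [Jx]
  · ext i j
    fin_cases i <;> fin_cases j <;> simp [Jx]

/-- **(E3')** closing the edge. -/
theorem edge_closeR {E : ℝ} (hE : Transcendental ℤ E) {ω : Om n q K}
    (hω : ω ∈ ZZs n (q + 1) (K + 1)) :
    IsUnit ((edgeMat ω (E : ℂ)).toBlocks₂₂ - -Jx).det ∧
    leadMat (front ω) (E : ℂ) = A.closeR (edgeMat ω (E : ℂ)) (-Jx) := by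
  obtain ⟨h1, h2⟩ := edge_close' hE hω
  rw [sub_neg_eq_add]
  refine ⟨h1, ?_⟩
  rw [A.closeR, sub_neg_eq_add]
  exact h2

/-- scattering form of (E3'). -/
theorem cay_front {E : ℝ} {m : ℂ} {ω : Om n q K} (hE : Transcendental ℤ E) (hm : m.im ≠ 0)
    (hω : ω ∈ ZZs n (q + 1) (K + 1)) :
    cay m (leadMat (front ω) (E : ℂ)) = A.closeM (cay m (edgeMat ω (E : ℂ))) (cay m (-Jx)) := by
  obtain ⟨h1, h2⟩ := edge_closeR hE hω
  have hJ : (-Jx)ᴴ = -Jx := by rw [conjTranspose_neg, Jx_realSymm.1]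
  rw [h2, A.cay_closeR (edgeMat_realSymm ω E).1 hm hJ h1]

theorem front_eq_front' (ω : Om n q K) : front ω = front' ω := rfl

end

end Vale.Agent.P156.H917
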