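import Mathlib

/-!
Group lemma (F1a): a multiplicatively closed set of complex matrices that contains all real
orthogonal matrices and one `diag (w, w⁻¹, 1, …)` with `|w| = 1`, `w ^ 2 ≠ 1` (at least three
indices) contains all diagonal unitary matrices of determinant `1`.
-/

namespace Vale.Agent.P156.H917

open Matrix

variable {I : Type*} [Fintype I] [DecidableEq I]

/-- The matrix acting as `[[x, y], [z, u]]` on the coordinates `b, c` and as the identity on the
others. -/
def plane {R : Type*} [Zero R] [One R] (b c : I) (x y z u : R) : Matrix I I R := fun i j =>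
  if i = b then (if j = b then x else if j = c then y else 0)
  else if i = c then (if j = b then z else if j = c then u else 0)
  else if i = j then 1 else 0

lemma sum_two {R : Type*} [CommSemiring R] {b c : I} (hbc : b ≠ c) (x y : R) (f : I → R) :
    ∑ k, (if k = b then x else if k = c then y else 0) * f k = x * f b + y * f c := by
  have h : ∀ k, (if k = b then x else if k = c then y else 0) * f k
      = (if k = b then x * f b else 0) + (if k = c then y * f c else 0) := by
    intro k
    by_cases h1 : k = b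
    · subst h1; simp [hbc]
    · by_cases h2 : k = c
      · subst h2; simp [h1]
      · simp [h1, h2]
  rw [Finset.sum_congr rfl (fun k _ => h k), Finset.sum_add_distrib]
  simp

lemma plane_mul {R : Type*} [CommSemiring R] {b c : I} (hbc : b ≠ c) (x y z u x' y' z' u' : R) :
    plane b c x y z u * plane b c x' y' z' u'
      = plane b c (x * x' + y * z') (x * y' + y * u') (z * x' + u * z') (z * y' + u * u') := by
  ext i j
  rw [Matrix.mul_apply]
  by_cases h1 : i = b
  · subst h1
    have : ∀ k, plane i c x y z u i k = (if k = i then x else if k = c then y else 0) := by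
      intro k; simp [plane]
    simp_rw [this]
    rw [sum_two hbc]
    simp only [plane, if_true, if_neg hbc.symm]
    by_cases h3 : j = i
    · simp [h3]
    · by_cases h4 : j = c
      · simp [h4, hbc.symm]
      · simp [h3, h4]
  · by_cases h2 : i = c
    · subst h2
      have : ∀ k, plane b i x y z u i k = (if k = b then z else if k = i then u else 0) := by
        intro k; simp [plane, h1]
      simp_rw [this]
      rw [sum_two hbc]
      simp only [plane, if_true, if_neg h1]
      by_cases h3 : j = b
      · simp [h3]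
      · by_cases h4 : j = i
        · simp [h4, h1]
        · simp [h3, h4]
    · have : ∀ k, plane b c x y z u i k = (if i = k then 1 else 0) := by
        intro k; simp [plane, h1, h2]
      simp_rw [this]
      simp only [ite_mul, one_mul, zero_mul, Finset.sum_ite_eq, Finset.mem_univ, if_true]
      simp [plane, h1, h2]

omit [Fintype I] in
lemma plane_transpose {R : Type*} [Zero R] [One R] {b c : I} (hbc : b ≠ c) (x y z u : R) :
    (plane b c x y z u)ᵀ = plane b c x z y u := by
  ext i j
  simp only [Matrix.transpose_apply, plane]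
  by_cases h1 : i = b <;> by_cases h2 : i = c <;> by_cases h3 : j = b <;> by_cases h4 : j = c <;>
    simp_all [eq_comm]

omit [Fintype I] in
lemma plane_one {R : Type*} [Zero R] [One R] {b c : I} (hbc : b ≠ c) :
    plane b c (1 : R) 0 0 1 = 1 := by
  ext i j
  simp only [plane, Matrix.one_apply]
  by_cases h1 : i = b <;> by_cases h2 : i = c <;> by_cases h3 : j = b <;> by_cases h4 : j = c <;>
    simp_all [eq_comm]

omit [Fintype I] in
lemma plane_map {R S : Type*} [Semiring R] [Semiring S] (f : R →+* S) (b c : I) (x y z u : R) :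
    (plane b c x y z u).map f = plane b c (f x) (f y) (f z) (f u) := by
  ext i j
  simp only [Matrix.map_apply, plane]
  split_ifs <;> simp

omit [Fintype I] in
/-- diagonal matrix with `z` at `b`, `z'` at `c` and `1` elsewhere -/
lemma plane_diag {R : Type*} [Zero R] [One R] {b c : I} (hbc : b ≠ c) (z z' : R) :
    plane b c z 0 0 z'
      = Matrix.diagonal (fun i => if i = b then z else if i = c then z' else 1) := by
  ext i j
  simp only [plane, Matrix.diagonal_apply]
  by_cases h1 : i = b <;> by_cases h2 : i = c <;> by_cases h3 : j = b <;> by_cases h4 : j = c <;>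
    simp_all [eq_comm]

/-- real rotation in the plane `b, c` -/
noncomputable def rot (b c : I) (t : ℝ) : Matrix I I ℝ :=
  plane b c (Real.cos t) (-Real.sin t) (Real.sin t) (Real.cos t)

lemma rot_mul_transpose {b c : I} (hbc : b ≠ c) (t : ℝ) : rot b c t * (rot b c t)ᵀ = 1 := by
  unfold rot
  rw [plane_transpose hbc, plane_mul hbc, ← plane_one (R := ℝ) hbc]
  congr 1 <;> nlinarith [Real.sin_sq_add_cos_sq t]

omit [Fintype I] in
lemma rot_map (b c : I) (t : ℝ) : (rot b c t).map (algebraMap ℝ ℂ)
    = plane b c (Complex.cos t) (-Complex.sin t) (Complex.sin t) (Complex.cos t) := by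
  unfold rot
  rw [plane_map]
  simp

/-- the permutation matrix of a transposition is real orthogonal -/
lemma swap_mul_transpose {b c : I} (hbc : b ≠ c) :
    (plane b c (0 : ℝ) 1 1 0) * (plane b c (0 : ℝ) 1 1 0)ᵀ = 1 := by
  rw [plane_transpose hbc, plane_mul hbc, ← plane_one (R := ℝ) hbc]
  simp

omit [Fintype I] in
lemma diag_conj {a b c : I} [Fintype I] (hab : a ≠ b) (hbc : b ≠ c) (hac : a ≠ c) (w : ℂ)
    (hw : w ≠ 0) (x y z u : ℂ) :
    plane a b w 0 0 w⁻¹ * plane b c x y z u * plane a b w⁻¹ 0 0 w
      = plane b c x (w⁻¹ * y) (w * z) u := by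
  rw [plane_diag hab, plane_diag hab]
  ext i j
  rw [Matrix.mul_diagonal, Matrix.diagonal_mul]
  simp only [plane]
  by_cases h1 : i = b
  · subst h1
    by_cases h2 : j = i
    · subst h2
      simp [hab.symm]
      field_simp
    · by_cases h3 : j = c
      · subst h3
        simp [hab.symm, hbc.symm, hac.symm]
      · simp [h2, h3]
  · by_cases h2 : i = c
    · subst h2
      by_cases h3 : j = b
      · subst h3
        simp [hac.symm, hab.symm, hbc.symm]
        ring
      · by_cases h4 : j = i
        · subst h4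
          simp [hac.symm, hbc.symm]
        · simp [h1, h3, h4]
    · by_cases h3 : i = j
      · subst h3
        simp only [h1, h2, if_false, if_true]
        by_cases h4 : i = a
        · simp [h4, hw]
        · simp [h4]
      · simp [h1, h2, h3]

lemma exists_angle {x y : ℝ} (h : x ^ 2 + y ^ 2 = 1) : ∃ t : ℝ, Real.cos t = x ∧ Real.sin t = y := by
  have hn : ‖(⟨x, y⟩ : ℂ)‖ = 1 := by
    rw [Complex.norm_def, Complex.normSq_mk, ← sq, ← sq, h, Real.sqrt_one]
  refine ⟨Complex.arg ⟨x, y⟩, ?_, ?_⟩
  · have := Complex.norm_mul_cos_arg (⟨x, y⟩ : ℂ)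
    rw [hn, one_mul] at this
    exact this
  · have := Complex.norm_mul_sin_arg (⟨x, y⟩ : ℂ)
    rw [hn, one_mul] at this
    exact this

/-- explicit Euler decomposition. -/
lemma euler {b c : I} (hbc : b ≠ c) (w : ℂ) (α t tp : ℝ)
    (h1 : Real.sin α = w.im * Real.sin t) (h2 : Real.cos α * Real.cos tp = Real.cos t)
    (h3 : Real.cos α * Real.sin tp = w.re * Real.sin t) (hw : ‖w‖ = 1) :
    plane b c (Complex.exp (α * Complex.I)) 0 0 (Complex.exp (-(α * Complex.I)))
      = plane b c (Complex.cos ((-((tp + Real.pi / 2) / 2) : ℝ) : ℂ))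
          (-Complex.sin ((-((tp + Real.pi / 2) / 2) : ℝ) : ℂ))
          (Complex.sin ((-((tp + Real.pi / 2) / 2) : ℝ) : ℂ))
          (Complex.cos ((-((tp + Real.pi / 2) / 2) : ℝ) : ℂ))
        * plane b c (Complex.cos t) (w⁻¹ * -Complex.sin t) (w * Complex.sin t) (Complex.cos t)
        * plane b c (Complex.cos ((-((tp - Real.pi / 2) / 2) : ℝ) : ℂ))
          (-Complex.sin ((-((tp - Real.pi / 2) / 2) : ℝ) : ℂ))
          (Complex.sin ((-((tp - Real.pi / 2) / 2) : ℝ) : ℂ))
          (Complex.cos ((-((tp - Real.pi / 2) / 2) : ℝ) : ℂ)) := by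
  set t1 : ℝ := (tp + Real.pi / 2) / 2 with ht1
  set t2 : ℝ := (tp - Real.pi / 2) / 2 with ht2
  have hs : tp = t1 + t2 := by rw [ht1, ht2]; ring
  have hd : t1 - t2 = Real.pi / 2 := by rw [ht1, ht2]; ring
  have hc0 : Real.cos t1 * Real.cos t2 + Real.sin t1 * Real.sin t2 = 0 := by
    rw [← Real.cos_sub, hd, Real.cos_pi_div_two]
  have hs1 : Real.sin t1 * Real.cos t2 - Real.cos t1 * Real.sin t2 = 1 := by
    rw [← Real.sin_sub, hd, Real.sin_pi_div_two]
  have hwi : w⁻¹ = (starRingEnd ℂ) w := by
    rw [Complex.inv_def, Complex.normSq_eq_norm_sq, hw]; simp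
  rw [hs, Real.cos_add] at h2
  rw [hs, Real.sin_add] at h3
  have e1 : Complex.exp (α * Complex.I) = ⟨Real.cos α, Real.sin α⟩ := by
    apply Complex.ext
    · rw [Complex.exp_ofReal_mul_I_re]
    · rw [Complex.exp_ofReal_mul_I_im]
  have e2 : Complex.exp (-(α * Complex.I)) = ⟨Real.cos α, -Real.sin α⟩ := by
    have : -((α : ℂ) * Complex.I) = ((-α : ℝ) : ℂ) * Complex.I := by push_cast; ring
    rw [this]
    apply Complex.ext
    · rw [Complex.exp_ofReal_mul_I_re, Real.cos_neg]
    · rw [Complex.exp_ofReal_mul_I_im, Real.sin_neg]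
  have q1 := Real.sin_sq_add_cos_sq t1
  have q2 := Real.sin_sq_add_cos_sq t2
  rw [plane_mul hbc, plane_mul hbc, e1, e2, hwi]
  have c1 : Complex.cos ((-t1 : ℝ) : ℂ) = ((Real.cos t1 : ℝ) : ℂ) := by
    rw [← Complex.ofReal_cos, Real.cos_neg]
  have s1 : Complex.sin ((-t1 : ℝ) : ℂ) = ((-Real.sin t1 : ℝ) : ℂ) := by
    rw [← Complex.ofReal_sin, Real.sin_neg]
  have c2 : Complex.cos ((-t2 : ℝ) : ℂ) = ((Real.cos t2 : ℝ) : ℂ) := by
    rw [← Complex.ofReal_cos, Real.cos_neg]
  have s2 : Complex.sin ((-t2 : ℝ) : ℂ) = ((-Real.sin t2 : ℝ) : ℂ) := by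
    rw [← Complex.ofReal_sin, Real.sin_neg]
  have c3 : Complex.cos (t : ℂ) = ((Real.cos t : ℝ) : ℂ) := (Complex.ofReal_cos t).symm
  have s3 : Complex.sin (t : ℂ) = ((Real.sin t : ℝ) : ℂ) := (Complex.ofReal_sin t).symm
  rw [c1, s1, c2, s2, c3, s3]
  congr 1
  · apply Complex.ext
    · simp only [Complex.mul_re, Complex.mul_im, Complex.add_re, Complex.add_im, Complex.neg_re,
        Complex.neg_im, Complex.ofReal_re, Complex.ofReal_im, Complex.conj_re, Complex.conj_im]
      linear_combination (Real.cos t1 * Real.cos t2 - Real.sin t1 * Real.sin t2) * h2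
        + (Real.sin t1 * Real.cos t2 + Real.cos t1 * Real.sin t2) * h3
        - Real.cos α * ((Real.sin t2 ^ 2 + Real.cos t2 ^ 2) * q1 + q2)
    · simp only [Complex.mul_re, Complex.mul_im, Complex.add_re, Complex.add_im, Complex.neg_re,
        Complex.neg_im, Complex.ofReal_re, Complex.ofReal_im, Complex.conj_re, Complex.conj_im]
      linear_combination h1 - w.im * Real.sin t * hs1
  · apply Complex.ext
    · simp only [Complex.mul_re, Complex.mul_im, Complex.add_re, Complex.add_im, Complex.neg_re,
        Complex.neg_im, Complex.ofReal_re, Complex.ofReal_im, Complex.conj_re, Complex.conj_im,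
        Complex.zero_re]
      linear_combination (Real.sin t1 * Real.cos t2 + Real.cos t1 * Real.sin t2) * h2
        - (Real.cos t1 * Real.cos t2 - Real.sin t1 * Real.sin t2) * h3
    · simp only [Complex.mul_re, Complex.mul_im, Complex.add_re, Complex.add_im, Complex.neg_re,
        Complex.neg_im, Complex.ofReal_re, Complex.ofReal_im, Complex.conj_re, Complex.conj_im,
        Complex.zero_im]
      linear_combination -(w.im * Real.sin t * hc0)
  · apply Complex.ext
    · simp only [Complex.mul_re, Complex.mul_im, Complex.add_re, Complex.add_im, Complex.neg_re,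
        Complex.neg_im, Complex.ofReal_re, Complex.ofReal_im, Complex.conj_re, Complex.conj_im,
        Complex.zero_re]
      linear_combination (-(Real.sin t1 * Real.cos t2 + Real.cos t1 * Real.sin t2)) * h2
        + (Real.cos t1 * Real.cos t2 - Real.sin t1 * Real.sin t2) * h3
    · simp only [Complex.mul_re, Complex.mul_im, Complex.add_re, Complex.add_im, Complex.neg_re,
        Complex.neg_im, Complex.ofReal_re, Complex.ofReal_im, Complex.conj_re, Complex.conj_im,
        Complex.zero_im]
      linear_combination -(w.im * Real.sin t * hc0)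
  · apply Complex.ext
    · simp only [Complex.mul_re, Complex.mul_im, Complex.add_re, Complex.add_im, Complex.neg_re,
        Complex.neg_im, Complex.ofReal_re, Complex.ofReal_im, Complex.conj_re, Complex.conj_im]
      linear_combination (Real.cos t1 * Real.cos t2 - Real.sin t1 * Real.sin t2) * h2
        + (Real.sin t1 * Real.cos t2 + Real.cos t1 * Real.sin t2) * h3
        - Real.cos α * ((Real.sin t2 ^ 2 + Real.cos t2 ^ 2) * q1 + q2)
    · simp only [Complex.mul_re, Complex.mul_im, Complex.add_re, Complex.add_im, Complex.neg_re,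
        Complex.neg_im, Complex.ofReal_re, Complex.ofReal_im, Complex.conj_re, Complex.conj_im]
      linear_combination -h1 + w.im * Real.sin t * hs1

/-- small phases -/
lemma small_mem (G : Set (Matrix I I ℂ)) (hmul : ∀ A ∈ G, ∀ B ∈ G, A * B ∈ G)
    (hO : ∀ O : Matrix I I ℝ, O * Oᵀ = 1 → O.map (algebraMap ℝ ℂ) ∈ G)
    {a b c : I} (hab : a ≠ b) (hbc : b ≠ c) (hac : a ≠ c) (w : ℂ) (hw : ‖w‖ = 1)
    (hwi : w.im ≠ 0) (hD : plane a b w 0 0 w⁻¹ ∈ G) (α : ℝ) (hα : |Real.sin α| ≤ |w.im|)
    (hc : 0 < Real.cos α) :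
    plane b c (Complex.exp (α * Complex.I)) 0 0 (Complex.exp (-(α * Complex.I))) ∈ G := by
  have hw0 : w ≠ 0 := by
    intro h; rw [h] at hw; simp at hw
  -- inverse of the diagonal element
  have hD' : plane a b w⁻¹ 0 0 w ∈ G := by
    have hP : (plane a b (0 : ℝ) 1 1 0).map (algebraMap ℝ ℂ) ∈ G := hO _ (swap_mul_transpose hab)
    rw [plane_map] at hP
    simp only [map_zero, map_one] at hP
    have := hmul _ (hmul _ hP _ hD) _ hP
    rw [plane_mul hab, plane_mul hab] at this
    simpa using this
  have hR : ∀ t : ℝ, plane b c (Complex.cos t) (-Complex.sin t) (Complex.sin t) (Complex.cos t)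
      ∈ G := by
    intro t
    have := hO _ (rot_mul_transpose hbc t)
    rwa [rot_map] at this
  have hg : ∀ t : ℝ, plane b c (Complex.cos t) (w⁻¹ * -Complex.sin t) (w * Complex.sin t)
      (Complex.cos t) ∈ G := by
    intro t
    rw [← diag_conj hab hbc hac w hw0]
    exact hmul _ (hmul _ hD _ (hR t)) _ hD'
  -- the angle t
  have hs1 : |Real.sin α / w.im| ≤ 1 := by
    rw [abs_div]
    exact div_le_one_of_le₀ hα (abs_nonneg _)
  obtain ⟨hs2, hs3⟩ := abs_le.mp hs1
  set t := Real.arcsin (Real.sin α / w.im) with ht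
  have hst : Real.sin t = Real.sin α / w.im := Real.sin_arcsin hs2 hs3
  have h1 : Real.sin α = w.im * Real.sin t := by rw [hst]; field_simp
  have hwn : w.re ^ 2 + w.im ^ 2 = 1 := by
    have := Complex.sq_norm w
    rw [hw, Complex.normSq_apply] at this
    nlinarith
  have hx : (Real.cos t / Real.cos α) ^ 2 + (w.re * Real.sin t / Real.cos α) ^ 2 = 1 := by
    have e1 := Real.sin_sq_add_cos_sq t
    have e2 := Real.sin_sq_add_cos_sq α
    have : Real.cos t ^ 2 + (w.re * Real.sin t) ^ 2 = Real.cos α ^ 2 := by
      rw [h1] at e2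
      have : w.re ^ 2 = 1 - w.im ^ 2 := by linarith
      rw [mul_pow, this]
      nlinarith
    rw [div_pow, div_pow, ← add_div, this, div_self (by positivity)]
  obtain ⟨tp, htp1, htp2⟩ := exists_angle hx
  have h2 : Real.cos α * Real.cos tp = Real.cos t := by rw [htp1]; field_simp
  have h3 : Real.cos α * Real.sin tp = w.re * Real.sin t := by rw [htp2]; field_simp
  rw [euler hbc w α t tp h1 h2 h3 hw]
  exact hmul _ (hmul _ (hR _) _ (hg t)) _ (hR _)

lemma phase_mem (G : Set (Matrix I I ℂ)) (hmul : ∀ A ∈ G, ∀ B ∈ G, A * B ∈ G)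
    (hO : ∀ O : Matrix I I ℝ, O * Oᵀ = 1 → O.map (algebraMap ℝ ℂ) ∈ G)
    {a b c : I} (hab : a ≠ b) (hbc : b ≠ c) (hac : a ≠ c) (w : ℂ) (hw : ‖w‖ = 1)
    (hwi : w.im ≠ 0) (hD : plane a b w 0 0 w⁻¹ ∈ G) (α : ℝ) :
    plane b c (Complex.exp (α * Complex.I)) 0 0 (Complex.exp (-(α * Complex.I))) ∈ G := by
  -- α / N is small
  have hlim : Filter.Tendsto (fun N : ℕ => α / ((N : ℝ) + 1)) Filter.atTop (nhds 0) := by
    have := tendsto_one_div_add_atTop_nhds_zero_nat (𝕜 := ℝ)
    have := this.const_mul α
    simp only [mul_zero, mul_one_div] at this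
    exact this
  have h1 : ∀ᶠ N : ℕ in Filter.atTop, |Real.sin (α / ((N : ℝ) + 1))| ≤ |w.im| := by
    have hc : Filter.Tendsto (fun N : ℕ => |Real.sin (α / ((N : ℝ) + 1))|) Filter.atTop
        (nhds |Real.sin 0|) := ((Real.continuous_sin.tendsto 0).comp hlim).abs
    rw [Real.sin_zero, abs_zero] at hc
    exact (hc.eventually_lt_const (abs_pos.mpr hwi)).mono fun _ h => h.le
  have h2 : ∀ᶠ N : ℕ in Filter.atTop, 0 < Real.cos (α / ((N : ℝ) + 1)) := by
    have hc : Filter.Tendsto (fun N : ℕ => Real.cos (α / ((N : ℝ) + 1))) Filter.atTop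
        (nhds (Real.cos 0)) := (Real.continuous_cos.tendsto 0).comp hlim
    rw [Real.cos_zero] at hc
    exact hc.eventually_const_lt one_pos
  obtain ⟨N, hN1, hN2⟩ := (h1.and h2).exists
  have hm := small_mem G hmul hO hab hbc hac w hw hwi hD _ hN1 hN2
  -- powers
  have hpow : ∀ k : ℕ, ∀ β : ℝ,
      plane b c (Complex.exp (β * Complex.I)) 0 0 (Complex.exp (-(β * Complex.I))) ∈ G →
      plane b c (Complex.exp (((k + 1 : ℕ) * β : ℝ) * Complex.I)) 0 0
        (Complex.exp (-((((k + 1 : ℕ) * β : ℝ) : ℂ) * Complex.I))) ∈ G := by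
    intro k β hβ
    induction k with
    | zero => simpa using hβ
    | succ k ih =>
      have := hmul _ ih _ hβ
      rw [plane_mul hbc] at this
      simp only [mul_zero, zero_mul, add_zero, zero_add, ← Complex.exp_add] at this
      have e1 : ((((k + 1 + 1 : ℕ) * β : ℝ) : ℂ) * Complex.I)
          = ((((k + 1 : ℕ) * β : ℝ) : ℂ) * Complex.I) + β * Complex.I := by push_cast; ring
      rw [e1, neg_add]
      exact this
  have := hpow N _ hm
  have hN : (((N + 1 : ℕ) : ℝ) * (α / ((N : ℝ) + 1))) = α := by
    push_cast; field_simp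
  rw [hN] at this
  exact this

lemma swap_diag {b c : I} (hbc : b ≠ c) (f : I → ℂ) :
    plane b c 0 1 1 0 * Matrix.diagonal f * plane b c 0 1 1 0
      = Matrix.diagonal (fun i => f (Equiv.swap b c i)) := by
  have h : ∀ i j, plane b c (0 : ℂ) 1 1 0 i j = if j = Equiv.swap b c i then 1 else 0 := by
    intro i j
    simp only [plane]
    by_cases h1 : i = b
    · subst h1
      simp only [if_true, Equiv.swap_apply_left]
      by_cases h2 : j = i
      · subst h2; simp [hbc]
      · simp [h2]
    · by_cases h2 : i = c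
      · subst h2
        simp only [h1, if_false, if_true, Equiv.swap_apply_right]
        by_cases h3 : j = b
        · simp [h3]
        · simp [h3]
      · rw [Equiv.swap_apply_of_ne_of_ne h1 h2]
        simp [h1, h2, eq_comm]
  ext i j
  rw [Matrix.mul_apply]
  simp_rw [Matrix.mul_diagonal, h]
  simp only [ite_mul, one_mul, zero_mul, mul_ite, mul_one, mul_zero]
  rw [Finset.sum_eq_single (Equiv.swap b c i)]
  · simp only [Equiv.swap_apply_self, if_true, Matrix.diagonal_apply]
    by_cases hij : i = j
    · simp [hij]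
    · simp [hij, Ne.symm hij]
  · intro k _ hk
    simp [hk]
  · simp

/-- **Group lemma.** -/
theorem diagonal_mem (G : Set (Matrix I I ℂ)) (hmul : ∀ A ∈ G, ∀ B ∈ G, A * B ∈ G)
    (hO : ∀ O : Matrix I I ℝ, O * Oᵀ = 1 → O.map (algebraMap ℝ ℂ) ∈ G)
    {a b c : I} (hab : a ≠ b) (hbc : b ≠ c) (hac : a ≠ c) (w : ℂ) (hw : ‖w‖ = 1)
    (hwi : w ^ 2 ≠ 1)
    (hD : Matrix.diagonal (fun i => if i = a then w else if i = b then w⁻¹ else 1) ∈ G)
    (f : I → ℂ) (hf : ∀ i, ‖f i‖ = 1) (hp : ∏ i, f i = 1) : Matrix.diagonal f ∈ G := by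
  have hwim : w.im ≠ 0 := by
    intro h
    apply hwi
    have h1 : w = (w.re : ℂ) := by
      apply Complex.ext <;> simp [h]
    have h2 : |w.re| = 1 := by
      rw [h1] at hw; simpa using hw
    rw [h1, ← Complex.ofReal_pow, ← sq_abs, h2]; simp
  rw [← plane_diag hab] at hD
  -- the pair (b, c)
  have key : ∀ z : ℂ, ‖z‖ = 1 → plane b c z 0 0 z⁻¹ ∈ G := by
    intro z hz
    have := phase_mem G hmul hO hab hbc hac w hw hwim hD z.arg
    have hz1 : Complex.exp (z.arg * Complex.I) = z := by
      have := Complex.norm_mul_exp_arg_mul_I z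
      rwa [hz, Complex.ofReal_one, one_mul] at this
    rw [Complex.exp_neg, hz1] at this
    exact this
  -- general pairs by conjugation with a permutation matrix
  have keyp : ∀ (b' : I), b' ≠ c → ∀ (z : ℂ), ‖z‖ = 1 → plane b' c z 0 0 z⁻¹ ∈ G := by
    intro b' hb' z hz
    by_cases hbb : b = b'
    · subst hbb; exact key z hz
    · have hP : (plane b b' (0 : ℝ) 1 1 0).map (algebraMap ℝ ℂ) ∈ G :=
        hO _ (swap_mul_transpose hbb)
      rw [plane_map] at hP
      simp only [map_zero, map_one] at hP
      have := hmul _ (hmul _ hP _ (key z hz)) _ hP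
      rw [plane_diag hbc, swap_diag hbb] at this
      rw [plane_diag hb']
      convert this using 2
      funext i
      by_cases h1 : i = b'
      · subst h1; simp
      · by_cases h2 : i = b
        · subst h2
          simp [hbb, hbc, Ne.symm hbb, hb']
        · rw [Equiv.swap_apply_of_ne_of_ne h2 h1]
          simp [h1, h2]
  have hone : (1 : Matrix I I ℂ) ∈ G := by
    have := hO 1 (by simp)
    rwa [Matrix.map_one _ (map_zero _) (map_one _)] at this
  -- induction over the set of indices already treated
  have ind : ∀ s : Finset I, c ∉ s → Matrix.diagonal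
      (fun i => if i ∈ s then f i else if i = c then (∏ j ∈ s, f j)⁻¹ else 1) ∈ G := by
    intro s
    induction s using Finset.induction_on with
    | empty =>
      intro _
      have : (fun i => if i ∈ (∅ : Finset I) then f i
          else if i = c then (∏ j ∈ (∅ : Finset I), f j)⁻¹ else 1) = fun _ => 1 := by
        funext i; simp
      rw [this]
      simpa using hone
    | insert x s hx ih =>
      intro hc
      rw [Finset.mem_insert, not_or] at hc
      have h1 := ih hc.2
      have h2 := keyp x (Ne.symm hc.1) (f x) (hf x)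
      have h3 := hmul _ h2 _ h1
      rw [plane_diag (Ne.symm hc.1), Matrix.diagonal_mul_diagonal] at h3
      have hfun : (fun i => if i ∈ insert x s then f i
            else if i = c then (∏ j ∈ insert x s, f j)⁻¹ else 1)
          = fun i => (if i = x then f x else if i = c then (f x)⁻¹ else 1) *
            (if i ∈ s then f i else if i = c then (∏ j ∈ s, f j)⁻¹ else 1) := by
       funext i
       rw [Finset.prod_insert hx]
       by_cases hi : i = x
       · subst hi
         simp only [Finset.mem_insert, true_or, if_true, hx, if_false, if_neg (Ne.symm hc.1),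
           mul_one]
       · by_cases hic : i = c
         · subst hic
           simp [hc.2, hi, mul_comm]
         · by_cases his : i ∈ s
           · simp [hi, hic, his]
           · simp [hi, hic, his]
      rw [hfun]
      exact h3
  have := ind (Finset.univ.erase c) (Finset.notMem_erase c _)
  convert this using 2
  funext i
  by_cases hi : i = c
  · subst hi
    have h1 : f i * ∏ j ∈ Finset.univ.erase i, f j = 1 := by
      rw [Finset.mul_prod_erase _ _ (Finset.mem_univ i)]; exact hp
    simp only [Finset.mem_erase, ne_eq, not_true_eq_false, Finset.mem_univ, and_true, if_false,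
      if_true]
    exact eq_inv_of_mul_eq_one_left h1
  · simp [hi]

end Vale.Agent.P156.H917
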