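import Vale.Agent.P156.F.Basic
import Vale.Agent.P156.H917.Group

/-!
F1, law level: an `O`-invariant law `H` on the symmetric unitary matrices whose image under
multiplication of one row and column by a phase `w`, `w ^ 2 ≠ 1`, is invariant under a
transposition, is invariant under all diagonal unitary matrices of determinant one.
-/

open Matrix MeasureTheory
open Vale.Agent.P156.F

namespace Vale.Agent.P156.H917

variable {ι : Type} [Fintype ι] [DecidableEq ι]

/-- a real orthogonal matrix as a unitary matrix -/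
lemma ofReal_mem_unitary {O : Matrix ι ι ℝ} (hO : O * Oᵀ = 1) :
    O.map (algebraMap ℝ ℂ) ∈ unitaryGroup ι ℂ := by
  rw [mem_unitaryGroup_iff, star_eq_conjTranspose]
  have h1 : (O.map (algebraMap ℝ ℂ))ᴴ = Oᵀ.map (algebraMap ℝ ℂ) := by
    ext i j
    simp
  rw [h1, ← Matrix.map_mul, hO, Matrix.map_one _ (map_zero _) (map_one _)]

lemma diagonal_mem_unitary {f : ι → ℂ} (hf : ∀ i, ‖f i‖ = 1) :
    Matrix.diagonal f ∈ unitaryGroup ι ℂ := by
  rw [mem_unitaryGroup_iff, star_eq_conjTranspose, diagonal_conjTranspose,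
    diagonal_mul_diagonal, ← diagonal_one]
  congr 1
  funext i
  rw [Pi.star_apply, Complex.star_def, Complex.mul_conj, Complex.normSq_eq_norm_sq, hf i]
  simp

/-- the entries of a diagonal unitary matrix have modulus one -/
lemma norm_diag_of_unitary {U : unitaryGroup ι ℂ} (hU : U.1.IsDiag) (i : ι) :
    ‖U.1 i i‖ = 1 := by
  have h := congrFun (congrFun (mem_unitaryGroup_iff.mp U.2) i) i
  rw [Matrix.mul_apply, Finset.sum_eq_single i] at h
  · rw [Matrix.star_apply, Complex.star_def, Complex.mul_conj, Complex.normSq_eq_norm_sq,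
      Matrix.one_apply_eq] at h
    have h2 : ‖U.1 i i‖ ^ 2 = 1 := by exact_mod_cast h
    have h3 : (0:ℝ) ≤ ‖U.1 i i‖ := norm_nonneg _
    nlinarith [sq_nonneg (‖U.1 i i‖ - 1), sq_nonneg (‖U.1 i i‖ + 1)]
  · intro j _ hj
    rw [hU (Ne.symm hj), zero_mul]
  · simp

lemma InvBy.inv_mul_of_eq {μ : Measure (SymU ι)} {U V : unitaryGroup ι ℂ}
    (h : μ.map (fun S => U • S) = μ.map (fun S => V • S)) : InvBy μ (U⁻¹ * V) := by
  unfold InvBy
  have h1 : (fun S : SymU ι => (U⁻¹ * V) • S) = (fun S => U⁻¹ • S) ∘ (fun S => V • S) := by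
    ext1 S
    exact mul_smul _ _ S
  rw [h1, ← Measure.map_map (F.measurable_smul _) (F.measurable_smul V), ← h,
    Measure.map_map (F.measurable_smul _) (F.measurable_smul U)]
  have h2 : (fun S : SymU ι => U⁻¹ • S) ∘ (fun S => U • S) = id := by
    ext1 S
    simp
  rw [h2, Measure.map_id]

/-- **F1.** -/
theorem DInv_of_swap {H : Measure (SymU ι)} (hO : OInv H) {a b c : ι} (hab : a ≠ b)
    (hbc : b ≠ c) (hac : a ≠ c) {w : ℂ} (hw2 : w ^ 2 ≠ 1) (Δ P : unitaryGroup ι ℂ)
    (hΔ : Δ.1 = Matrix.diagonal (fun i => if i = a then w else 1))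
    (hP : P.1 = plane a b 0 1 1 0)
    (hswap : InvBy (H.map (fun S => Δ • S)) P) : DInv H := by
  classical
  have hwn : ‖w‖ = 1 := by
    have := norm_diag_of_unitary (U := Δ) (by rw [hΔ]; exact isDiag_diagonal _) a
    rw [hΔ] at this
    simpa using this
  have hPreal : IsReal P := by
    intro i j
    rw [hP]
    unfold plane
    split_ifs <;> simp
  have hPH : InvBy H P := hO P hPreal
  -- `H.map (P Δ P) = H.map Δ`
  have h1 : H.map (fun S => (P * Δ * P) • S) = H.map (fun S => Δ • S) := by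
    have e1 : (fun S : SymU ι => (P * Δ * P) • S)
        = (fun S => P • S) ∘ (fun S => Δ • S) ∘ (fun S => P • S) := by
      ext1 S
      simp only [Function.comp, mul_smul]
    rw [e1, ← Measure.map_map (F.measurable_smul _)
      ((F.measurable_smul _).comp (F.measurable_smul _)),
      ← Measure.map_map (F.measurable_smul _) (F.measurable_smul _), hPH]
    exact hswap
  have h2 : InvBy H (Δ⁻¹ * (P * Δ * P)) := InvBy.inv_mul_of_eq h1.symm
  have hΔi : (Δ⁻¹).1 = Matrix.diagonal (fun i => if i = a then w⁻¹ else 1) := by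
    have e1 : (Δ⁻¹).1 = star Δ.1 := rfl
    rw [e1, hΔ, star_eq_conjTranspose, diagonal_conjTranspose]
    congr 1
    funext i
    rw [Pi.star_apply]
    have hwi : star w = w⁻¹ := by
      rw [Complex.star_def, Complex.inv_def, Complex.normSq_eq_norm_sq, hwn]; simp
    split_ifs
    · exact hwi
    · simp
  have hD : (Δ⁻¹ * (P * Δ * P)).1
      = Matrix.diagonal (fun i => if i = a then w⁻¹ else if i = b then (w⁻¹)⁻¹ else 1) := by
    have e1 : (Δ⁻¹ * (P * Δ * P)).1 = (Δ⁻¹).1 * (P.1 * Δ.1 * P.1) := rfl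
    rw [e1, hΔi, hP, hΔ, swap_diag hab, Matrix.diagonal_mul_diagonal]
    congr 1
    funext i
    by_cases h3 : i = a
    · subst h3
      simp [Ne.symm hab]
    · by_cases h4 : i = b
      · subst h4; simp [h3]
      · rw [Equiv.swap_apply_of_ne_of_ne h3 h4]
        simp [h3, h4]
  intro U hUd hUdet
  have key := diagonal_mem (G := {M | ∃ V : unitaryGroup ι ℂ, V.1 = M ∧ InvBy H V})
    (by
      rintro A ⟨V, hV, hV2⟩ B ⟨W, hW, hW2⟩
      exact ⟨V * W, by rw [← hV, ← hW]; rfl, hV2.mul hW2⟩)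
    (by
      intro O hOO
      refine ⟨⟨_, ofReal_mem_unitary hOO⟩, rfl, hO _ ?_⟩
      intro i j
      simp)
    hab hbc hac w⁻¹ (by rw [norm_inv, hwn, inv_one])
    (by rw [inv_pow]; intro h; exact hw2 (inv_eq_one.mp h))
    ⟨_, hD, h2⟩ (fun i => U.1 i i) (norm_diag_of_unitary hUd)
    (by rw [← hUdet, ← Matrix.IsDiag.diagonal_diag hUd, Matrix.det_diagonal]; simp)
  obtain ⟨V, hV, hV2⟩ := key
  have : V = U := by
    apply Subtype.ext
    rw [hV]
    exact Matrix.IsDiag.diagonal_diag hUd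
  rw [← this]
  exact hV2

end Vale.Agent.P156.H917
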