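import Vale.Agent.P156.H917.Comp
import Vale.Agent.P156.H917.E3p
import Vale.Agent.P156.H917.F1
import Vale.Agent.P156.H144.SpecXBase
import Vale.Agent.P156.H167.Weak

/-!
(H): the limit law of the compressed scattering matrix of `K + 1` stars and of the edge system.
-/

open Matrix MeasureTheory Filter Topology
open scoped ComplexConjugate

namespace Vale.Agent.P156.H917

open Vale.Agent.P156

noncomputable section

variable {q K : ℕ} {𝒰 : Ultrafilter ℕ} {E : ℕ → ℝ} {E₀ : ℝ}

lemma comp_eq_toC (R : Matrix (Fin (K + 1) × Fin (q + 1)) (Fin (K + 1) × Fin (q + 1)) ℂ) :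
    comp R = (A.toC (Wm q K))ᵀ * R * A.toC (Wm q K) := rfl

lemma comp_realSymm {R : Matrix (Fin (K + 1) × Fin (q + 1)) (Fin (K + 1) × Fin (q + 1)) ℂ}
    (hR : A.RealSymm R) : A.RealSymm (comp R) := by
  constructor
  · exact comp_isHermitian hR.1
  · rw [comp_eq_toC, transpose_mul, transpose_mul, hR.2, transpose_transpose, Matrix.mul_assoc]

lemma Dl_mem {w : ℂ} (hw : ‖w‖ = 1) : Dl K q w ∈ unitaryGroup ((Fin K × Fin (q + 1)) ⊕ Fin 2) ℂ := by
  unfold Dl
  apply diagonal_mem_unitary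
  intro i
  split_ifs
  · exact hw
  · simp

/-- the phase matrix as a unitary matrix -/
def DlU (K q : ℕ) (w : ℂ) (hw : ‖w‖ = 1) : unitaryGroup ((Fin K × Fin (q + 1)) ⊕ Fin 2) ℂ :=
  ⟨Dl K q w, Dl_mem hw⟩

/-- **(H), first part**: the compressed law is invariant under real orthogonal matrices. -/
theorem OInv_H (hG : GoodSeq (q + 1) 𝒰 E E₀) (hO : SpecOInv (q + 1)) (hK : 1 ≤ K)
    {H : Measure (F.SymU ((Fin K × Fin (q + 1)) ⊕ Fin 2))} [IsProbabilityMeasure H]
    (hH : Lim.IsLimitLaw (𝒰 : Filter ℕ) (fun n => WW n (q + 1) (K + 1))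
      (fun n ω => H167.toSU (cay (mE (q + 1) (E n)) (comp (leadMat ω (E n : ℂ))))) H) :
    F.OInv H := by
  have hq : 0 < q := by have := hG.three; omega
  have hs := H144.good_nonempty hG (K + 1)
  obtain ⟨Λ, hΛp, hΛ⟩ := Lim.exists_isLimitLaw 𝒰 (fun n => WW n (q + 1) (K + 1))
    (fun n ω => H167.toSU (SX (E n) ω)) hs
  have h1 := H144.limit_isUnit hG (K + 1) hΛ
  have h2 := H144.oinv_of_specOInv hO hG (by omega) hΛ
  have hR : ∀ᶠ n in (𝒰 : Filter ℕ), ∀ ω ∈ WW n (q + 1) (K + 1),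
      A.RealSymm (leadMat ω (E n : ℂ)) :=
    Eventually.of_forall fun n ω _ => A.leadMat_realSymm ω (E n)
  have hm : ∀ᶠ n in (𝒰 : Filter ℕ), (mE (q + 1) (E n)).im ≠ 0 := by
    filter_upwards [H144.good_im_pos hG] with n hn
    exact hn.ne'
  have h3 := compression_law (P := Wm q K) hs hR hm hΛ h1 (Wm_isometry hq) hH
  rw [h3]
  exact OInv_map_cmpS h1 (Wm_isometry hq) h2

/-- the limit law of the edge system is the image of `H` under the phase matrix. -/
theorem edge_limit (hG : GoodSeq (q + 1) 𝒰 E E₀) (hZW : SpecZW (q + 1))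
    {H : Measure (F.SymU ((Fin K × Fin (q + 1)) ⊕ Fin 2))} [IsProbabilityMeasure H]
    (hH : Lim.IsLimitLaw (𝒰 : Filter ℕ) (fun n => WW n (q + 1) (K + 1))
      (fun n ω => H167.toSU (cay (mE (q + 1) (E n)) (comp (leadMat ω (E n : ℂ))))) H)
    (hw : ‖wE q E₀‖ = 1) :
    Lim.IsLimitLaw (𝒰 : Filter ℕ) (fun n => WW n (q + 1) (K + 1))
      (fun n ω => H167.toSU (cay (mE (q + 1) (E n)) (edgeMat ω (E n : ℂ))))
      (H.map (fun S => DlU K q (wE q E₀) hw • S)) := by
  classical
  have hq : 0 < q := by have := hG.three; omega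
  have hbulk : ∀ᶠ n in (𝒰 : Filter ℕ), E n ^ 2 < 4 * q := by
    filter_upwards [H144.good_bulk hG] with n hn
    have := A.sq_lt_of_bulk (d := q + 1) (by omega) hn
    push_cast at this
    linarith
  set θ : ℕ → unitaryGroup ((Fin K × Fin (q + 1)) ⊕ Fin 2) ℂ := fun n =>
    if h : ‖wE q (E n)‖ = 1 then DlU K q (wE q (E n)) h else DlU K q (wE q E₀) hw with hθdef
  have hθ : Tendsto θ (𝒰 : Filter ℕ) (𝓝 (DlU K q (wE q E₀) hw)) := by
    rw [tendsto_subtype_rng]
    have h1 : Tendsto (fun n => Dl K q (wE q (E n))) (𝒰 : Filter ℕ) (𝓝 (Dl K q (wE q E₀))) := by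
      have hc : Continuous (fun w : ℂ => Dl K q w) := by
        unfold Dl
        refine Continuous.matrix_diagonal ?_
        refine continuous_pi fun i => ?_
        split_ifs
        · exact continuous_id
        · exact continuous_const
      exact ((hc.comp (continuous_wE q)).tendsto E₀).comp hG.lim
    refine h1.congr' ?_
    filter_upwards [hbulk] with n hn
    have h2 : ‖wE q (E n)‖ = 1 := norm_wE hq hn
    rw [hθdef]
    simp only [h2, dif_pos]
    rfl
  intro G
  rw [integral_map (F.measurable_smul _).aemeasurable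
    G.continuous.measurable.aestronglyMeasurable]
  refine H167.transfer (A := F.SymU ((Fin K × Fin (q + 1)) ⊕ Fin 2))
    (B := F.SymU ((Fin K × Fin (q + 1)) ⊕ Fin 2))
    (Θ := unitaryGroup ((Fin K × Fin (q + 1)) ⊕ Fin 2) ℂ)
    (fun n => WW n (q + 1) (K + 1))
    (fun n ω => H167.toSU (cay (mE (q + 1) (E n)) (comp (leadMat ω (E n : ℂ)))))
    (fun n ω => H167.toSU (cay (mE (q + 1) (E n)) (edgeMat ω (E n : ℂ)))) H
    (fun F' => hH (BoundedContinuousFunction.mkOfCompact F'))
    (fun n ω => ω ∉ ZZs n (q + 1) (K + 1)) (H144.good_ZZ hZW hG (K + 1))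
    θ (DlU K q (wE q E₀) hw) hθ (fun p => p.1 • p.2) Set.univ isOpen_univ
    F.continuous_smul_pair.continuousOn ?_ ?_ G.toContinuousMap ?_
  · simp
  · filter_upwards [hbulk, hG.trans, H144.good_im_pos hG] with n hn htr him ω _ hbad _
    have hZ : ω ∈ ZZs n (q + 1) (K + 1) := not_not.1 hbad
    have h2 : ‖wE q (E n)‖ = 1 := norm_wE hq hn
    have h3 : θ n = DlU K q (wE q (E n)) h2 := by
      rw [hθdef]
      simp only [h2, dif_pos]
    have h4 := cay_edgeMat' htr hZ hq hn
    apply Subtype.ext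
    rw [H167.coe_toSU (H167.cay_mem_symU him.ne' (edgeMat_realSymm ω (E n)))]
    rw [F.coe_smul, H167.coe_toSU (H167.cay_mem_symU him.ne'
      (comp_realSymm (A.leadMat_realSymm ω (E n)))), h3, h4]
    change _ = Dl K q (wE q (E n)) * _ * (Dl K q (wE q (E n)))ᵀ
    rw [show (Dl K q (wE q (E n)))ᵀ = Dl K q (wE q (E n)) from by
      unfold Dl; exact Matrix.diagonal_transpose _]
  · exact (G.continuous.comp (continuous_const_smul _)).measurable

/-! ### The exchange of the two ends of the edge -/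

section swap

variable {J : Type} [Fintype J] [DecidableEq J]

lemma plane_swap_apply {a b : J} (hab : a ≠ b) (i j : J) :
    (plane a b 0 1 1 0 : Matrix J J ℂ) i j = if Equiv.swap a b i = j then 1 else 0 := by
  unfold plane
  by_cases h1 : i = a
  · subst h1
    rw [if_pos rfl, Equiv.swap_apply_left]
    by_cases h2 : j = i
    · subst h2
      simp [Ne.symm hab]
    · simp [h2, eq_comm]
  · by_cases h2 : i = b
    · subst h2
      rw [if_neg h1, if_pos rfl, Equiv.swap_apply_right]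
      by_cases h3 : j = a
      · subst h3; simp
      · have h3' : a ≠ j := fun h => h3 h.symm
        simp [h3, h3']
    · rw [if_neg h1, if_neg h2, Equiv.swap_apply_of_ne_of_ne h1 h2]

lemma plane_swap_conj {a b : J} (hab : a ≠ b) (S : Matrix J J ℂ) :
    (plane a b 0 1 1 0 : Matrix J J ℂ) * S * (plane a b 0 1 1 0)ᵀ
      = S.submatrix (Equiv.swap a b) (Equiv.swap a b) := by
  ext i j
  rw [Matrix.mul_apply, Matrix.submatrix_apply, Finset.sum_eq_single (Equiv.swap a b j)]
  · rw [Matrix.transpose_apply, plane_swap_apply hab, if_pos rfl, mul_one, Matrix.mul_apply,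
      Finset.sum_eq_single (Equiv.swap a b i)]
    · rw [plane_swap_apply hab, if_pos rfl, one_mul]
    · intro k _ hk
      rw [plane_swap_apply hab, if_neg (Ne.symm hk), zero_mul]
    · simp
  · intro k _ hk
    rw [Matrix.transpose_apply, plane_swap_apply hab, if_neg (Ne.symm hk), mul_zero]
  · simp

lemma plane_swap_mem {a b : J} (hab : a ≠ b) :
    (plane a b 0 1 1 0 : Matrix J J ℂ) ∈ unitaryGroup J ℂ := by
  rw [mem_unitaryGroup_iff, star_eq_conjTranspose]
  have h1 : (plane a b 0 1 1 0 : Matrix J J ℂ)ᴴ = (plane a b 0 1 1 0 : Matrix J J ℂ)ᵀ := by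
    ext i j
    rw [conjTranspose_apply, transpose_apply, plane_swap_apply hab]
    split_ifs <;> simp
  rw [h1]
  have h2 := plane_swap_conj hab (1 : Matrix J J ℂ)
  rw [Matrix.mul_one] at h2
  rw [h2, submatrix_one_equiv]

/-- the exchange of two channels -/
def swapU {a b : J} (hab : a ≠ b) : unitaryGroup J ℂ := ⟨plane a b 0 1 1 0, plane_swap_mem hab⟩

lemma swapU_toSU {a b : J} (hab : a ≠ b) {m : ℂ} (hm : m.im ≠ 0) {R : Matrix J J ℂ}
    (hR : A.RealSymm R) :
    swapU hab • H167.toSU (cay m R)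
      = H167.toSU (cay m (R.submatrix (Equiv.swap a b) (Equiv.swap a b))) := by
  apply Subtype.ext
  rw [F.coe_smul, H167.coe_toSU (H167.cay_mem_symU hm hR),
    H167.coe_toSU (H167.cay_mem_symU hm (hR.submatrix _)), A.cay_submatrix]
  exact plane_swap_conj hab _

end swap

lemma inr_ne (K q : ℕ) : (Sum.inr 0 : (Fin K × Fin (q + 1)) ⊕ Fin 2) ≠ Sum.inr 1 := by simp

lemma swapE_eq (x : (Fin K × Fin (q + 1)) ⊕ Fin 2) :
    swapE (Fin K × Fin (q + 1)) x = Equiv.swap (Sum.inr 0) (Sum.inr 1) x := by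
  rcases x with x | i
  · rw [Equiv.swap_apply_of_ne_of_ne (by simp) (by simp)]
    rfl
  · fin_cases i
    · exact (Equiv.swap_apply_left _ _).symm
    · exact (Equiv.swap_apply_right _ _).symm

/-- swap invariance of the limit law of the edge system -/
theorem edge_swapInv (hG : GoodSeq (q + 1) 𝒰 E E₀)
    {μ : Measure (F.SymU ((Fin K × Fin (q + 1)) ⊕ Fin 2))} [IsProbabilityMeasure μ]
    (hμ : Lim.IsLimitLaw (𝒰 : Filter ℕ) (fun n => WW n (q + 1) (K + 1))
      (fun n ω => H167.toSU (cay (mE (q + 1) (E n)) (edgeMat ω (E n : ℂ)))) μ) :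
    F.InvBy μ (swapU (inr_ne K q)) := by
  have h1 := hμ.map_continuous (continuous_const_smul (swapU (inr_ne K q)))
  have : IsProbabilityMeasure (μ.map fun S => swapU (inr_ne K q) • S) :=
    Measure.isProbabilityMeasure_map (F.measurable_smul _).aemeasurable
  refine h1.eq_of_tendsto_sub hμ fun G => ?_
  refine tendsto_const_nhds.congr' ?_
  filter_upwards [H144.good_im_pos hG] with n him
  have h2 := avg_edge_swap (n := n) (q := q) (K := K) (E n : ℂ)
    (fun _ R => G (H167.toSU (cay (mE (q + 1) (E n)) R)))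
  rw [eq_comm, sub_eq_zero]
  have h3 : ∀ ω : Om n q K, swapU (inr_ne K q) • H167.toSU (cay (mE (q + 1) (E n)) (edgeMat ω (E n : ℂ)))
      = H167.toSU (cay (mE (q + 1) (E n))
        ((edgeMat ω (E n : ℂ)).submatrix (swapE _) (swapE _))) := by
    intro ω
    rw [swapU_toSU (inr_ne K q) him.ne' (edgeMat_realSymm ω (E n))]
    have h4 : (Equiv.swap (Sum.inr 0) (Sum.inr 1) : (Fin K × Fin (q + 1)) ⊕ Fin 2 ≃ _)
        = swapE (Fin K × Fin (q + 1)) := by
      ext1 x
      exact (swapE_eq x).symm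
    rw [h4]
  simp only [h3]
  exact h2.symm

/-- **(H)**: invariances of the compressed law. -/
theorem law_H (hG : GoodSeq (q + 1) 𝒰 E E₀) (hZW : SpecZW (q + 1)) (hO : SpecOInv (q + 1))
    (hK : 1 ≤ K)
    {H : Measure (F.SymU ((Fin K × Fin (q + 1)) ⊕ Fin 2))} [IsProbabilityMeasure H]
    (hH : Lim.IsLimitLaw (𝒰 : Filter ℕ) (fun n => WW n (q + 1) (K + 1))
      (fun n ω => H167.toSU (cay (mE (q + 1) (E n)) (comp (leadMat ω (E n : ℂ))))) H) :
    F.OInv H ∧ F.DInv H := by
  have hq : 0 < q := by have := hG.three; omega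
  have hE4 : E₀ ^ 2 < 4 * q := by
    have := A.sq_lt_of_bulk (d := q + 1) (by omega) hG.bulk
    push_cast at this
    linarith
  have hw : ‖wE q E₀‖ = 1 := norm_wE hq hE4
  have h1 := OInv_H hG hO hK hH
  refine ⟨h1, ?_⟩
  have h2 := edge_limit hG hZW hH hw
  have : IsProbabilityMeasure (H.map (fun S => DlU K q (wE q E₀) hw • S)) :=
    Measure.isProbabilityMeasure_map (F.measurable_smul _).aemeasurable
  have h3 := edge_swapInv hG h2
  have hK' : 0 < K := hK
  exact DInv_of_swap h1 (a := Sum.inr 0) (b := Sum.inr 1)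
    (c := Sum.inl (⟨0, hK'⟩, ⟨0, by omega⟩)) (inr_ne K q) (by simp) (by simp) (wE_sq_ne hq hE4)
    (DlU K q (wE q E₀) hw) (swapU (inr_ne K q)) rfl rfl h3

/-- **(H)** from the limit law: existence of `H` with its invariances and the limit law of the
edge system. -/
theorem exists_H (hG : GoodSeq (q + 1) 𝒰 E E₀) (hZW : SpecZW (q + 1)) (hO : SpecOInv (q + 1))
    (hK : 1 ≤ K) (hw : ‖wE q E₀‖ = 1) :
    ∃ H : Measure (F.SymU ((Fin K × Fin (q + 1)) ⊕ Fin 2)), IsProbabilityMeasure H ∧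
      Lim.IsLimitLaw (𝒰 : Filter ℕ) (fun n => WW n (q + 1) (K + 1))
        (fun n ω => H167.toSU (cay (mE (q + 1) (E n)) (comp (leadMat ω (E n : ℂ))))) H ∧
      F.OInv H ∧ F.DInv H ∧
      Lim.IsLimitLaw (𝒰 : Filter ℕ) (fun n => WW n (q + 1) (K + 1))
        (fun n ω => H167.toSU (cay (mE (q + 1) (E n)) (edgeMat ω (E n : ℂ))))
        (H.map (fun S => DlU K q (wE q E₀) hw • S)) := by
  obtain ⟨H, hHp, hH⟩ := Lim.exists_isLimitLaw 𝒰 (fun n => WW n (q + 1) (K + 1))
    (fun n ω => H167.toSU (cay (mE (q + 1) (E n)) (comp (leadMat ω (E n : ℂ)))))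
    (H144.good_nonempty hG (K + 1))
  exact ⟨H, hHp, hH, (law_H hG hZW hO hK hH).1, (law_H hG hZW hO hK hH).2,
    edge_limit hG hZW hH hw⟩

end

end Vale.Agent.P156.H917
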