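import Vale.Agent.P156.H917.CayIns

/-!
(E3): the edge `{a, b}` is inserted again.
-/

open Matrix
open scoped ComplexConjugate

namespace Vale.Agent.P156.H917

noncomputable section

variable {n q K : ℕ}

/-- the matrix of the edge `{a, b}` -/
def Jx : Matrix (Fin 2) (Fin 2) ℂ := !![0, 1; 1, 0]

lemma Jx_sq : Jx * Jx = 1 := by
  unfold Jx
  ext i j
  fin_cases i <;> fin_cases j <;> simp

lemma eb_notMem {ω : Om n q K} (hω : ω ∈ ZZs n (q + 1) (K + 1)) : eb ω ∉ centres (front ω) :=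
  fun h => leaf_notMem hω (Fin.last K) (Fin.last q) (mem_centres_succ.mpr (Or.inl h))

lemma cutMat_add_edge {ω : Om n q K} (hω : ω ∈ ZZs n (q + 1) (K + 1)) (z : ℂ) :
    cutMat (adj ω.1) (centres (front ω)) z
      = cutMat (adjE ω.1 (ea ω) (eb ω)) (centres (front ω)) z
        + Matrix.single (ea ω) (eb ω) 1 + Matrix.single (eb ω) (ea ω) 1 := by
  classical
  have hab : ea ω ≠ eb ω := fun h => (mem_ZZs.mp hω).2.2.2 (Fin.last K) (Fin.last q) (Fin.last K)
    h.symm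
  have ha := ea_notMem hω
  have hb := eb_notMem hω
  have hadj : ω.1.Adj (ea ω) (eb ω) := (adj_last hω _).mpr ⟨_, rfl⟩
  ext x y
  rw [Matrix.add_apply, Matrix.add_apply, Matrix.single_apply, Matrix.single_apply]
  unfold cutMat adjE
  rw [adj_apply']
  by_cases h1 : x = ea ω ∧ y = eb ω
  · obtain ⟨rfl, rfl⟩ := h1
    simp [ha, hb, hab, hadj, Ne.symm hab]
  · by_cases h2 : x = eb ω ∧ y = ea ω
    · obtain ⟨rfl, rfl⟩ := h2
      simp [ha, hb, hab, hadj.symm, Ne.symm hab]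
    · have h1' : ¬ (ea ω = x ∧ eb ω = y) := fun h => h1 ⟨h.1.symm, h.2.symm⟩
      have h2' : ¬ (eb ω = x ∧ ea ω = y) := fun h => h2 ⟨h.1.symm, h.2.symm⟩
      simp only [h1, h2, h1', h2', or_self, if_false, add_zero]

section

variable {ω : Om n q K} (hω : ω ∈ ZZs n (q + 1) (K + 1)) {z : ℂ}
  (h1 : IsUnit (cutMat (adjE ω.1 (ea ω) (eb ω)) (centres (front ω)) z).det)
  (h2 : IsUnit (cutMat (adj ω.1) (centres (front ω)) z).det)

include hω h1 h2

lemma edge_insert (x y : Fin n) :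
    resD (adj ω.1) (centres (front ω)) z x y
      = resD (adjE ω.1 (ea ω) (eb ω)) (centres (front ω)) z x y
        - (resD (adjE ω.1 (ea ω) (eb ω)) (centres (front ω)) z x (ea ω)
            * resD (adj ω.1) (centres (front ω)) z (eb ω) y
          + resD (adjE ω.1 (ea ω) (eb ω)) (centres (front ω)) z x (eb ω)
            * resD (adj ω.1) (centres (front ω)) z (ea ω) y) :=
  edge_resolvent (cutMat_add_edge hω z) h2 h1 x y

/-- **(E3)**, block form. -/
theorem edge_close :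
    IsUnit ((edgeMat ω z).toBlocks₂₂ + Jx).det ∧
    leadMat (front ω) z = (edgeMat ω z).toBlocks₁₁
      - (edgeMat ω z).toBlocks₁₂ * ((edgeMat ω z).toBlocks₂₂ + Jx)⁻¹
        * (edgeMat ω z).toBlocks₂₁ := by
  set R := edgeMat ω z with hR
  set G : Matrix ((Fin K × Fin (q + 1)) ⊕ Fin 2) ((Fin K × Fin (q + 1)) ⊕ Fin 2) ℂ :=
    (resD (adj ω.1) (centres (front ω)) z).submatrix (elead (front ω) (ea ω) (eb ω))
      (elead (front ω) (ea ω) (eb ω)) with hG
  have hGR : ∀ i j, G i j = R i j - (R i (Sum.inr 0) * G (Sum.inr 1) j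
      + R i (Sum.inr 1) * G (Sum.inr 0) j) := by
    intro i j
    exact edge_insert hω h1 h2 _ _
  have g11 : G.toBlocks₁₁ = R.toBlocks₁₁ - R.toBlocks₁₂ * Jx * G.toBlocks₂₁ := by
    ext i j
    rw [Matrix.sub_apply, Matrix.mul_apply]
    simp only [Matrix.mul_apply, Fin.sum_univ_two, Jx, Matrix.toBlocks₁₁, Matrix.toBlocks₁₂,
      Matrix.toBlocks₂₁, Matrix.of_apply]
    rw [hGR]
    simp
    ring
  have g21 : G.toBlocks₂₁ = R.toBlocks₂₁ - R.toBlocks₂₂ * Jx * G.toBlocks₂₁ := by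
    ext i j
    rw [Matrix.sub_apply, Matrix.mul_apply]
    simp only [Matrix.mul_apply, Fin.sum_univ_two, Jx, Matrix.toBlocks₂₂,
      Matrix.toBlocks₂₁, Matrix.of_apply]
    rw [hGR]
    simp
    ring
  have g22 : G.toBlocks₂₂ = R.toBlocks₂₂ - R.toBlocks₂₂ * Jx * G.toBlocks₂₂ := by
    ext i j
    rw [Matrix.sub_apply, Matrix.mul_apply]
    simp only [Matrix.mul_apply, Fin.sum_univ_two, Jx, Matrix.toBlocks₂₂, Matrix.of_apply]
    rw [hGR]
    simp
    ring
  have hinv : (R.toBlocks₂₂ + Jx) * (Jx - Jx * G.toBlocks₂₂ * Jx) = 1 := by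
    have e1 : (R.toBlocks₂₂ + Jx) * (Jx - Jx * G.toBlocks₂₂ * Jx)
        = (R.toBlocks₂₂ - R.toBlocks₂₂ * Jx * G.toBlocks₂₂) * Jx + Jx * Jx
          - (Jx * Jx) * G.toBlocks₂₂ * Jx := by
      noncomm_ring
    rw [e1, ← g22, Jx_sq, Matrix.one_mul]
    abel
  have hu : IsUnit (R.toBlocks₂₂ + Jx).det := by
    have := congrArg Matrix.det hinv
    rw [Matrix.det_mul, Matrix.det_one] at this
    exact IsUnit.of_mul_eq_one _ this
  refine ⟨hu, ?_⟩
  have h3 : Jx * G.toBlocks₂₁ = (R.toBlocks₂₂ + Jx)⁻¹ * R.toBlocks₂₁ := by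
    have e2 : (R.toBlocks₂₂ + Jx) * (Jx * G.toBlocks₂₁) = R.toBlocks₂₁ := by
      rw [Matrix.add_mul, ← Matrix.mul_assoc, ← Matrix.mul_assoc, Jx_sq, Matrix.one_mul]
      exact (add_comm _ _).trans (eq_sub_iff_add_eq.mp g21)
    rw [← e2, ← Matrix.mul_assoc, Matrix.nonsing_inv_mul _ hu, Matrix.one_mul]
  have h4 : leadMat (front ω) z = G.toBlocks₁₁ := rfl
  rw [h4, g11, Matrix.mul_assoc, h3, ← Matrix.mul_assoc]

end

/-- average over `K + 1` stars of a function of the first `K` stars -/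
theorem avg_front {n d K : ℕ} (hn : n ≠ 0) (Φ : SimpleGraph (Fin n) × StarPos n d K → ℝ) :
    avg (WW n d (K + 1)) (fun ω => Φ (front' ω)) = avg (WW n d K) Φ := by
  have h1 := sum_WW_front (n := n) (d := d) (K := K) Φ
  have h2 := sum_WW_front (n := n) (d := d) (K := K) (fun _ => 1)
  simp only [Finset.sum_const, nsmul_eq_mul, mul_one] at h2
  have h3 : (d.factorial * n : ℝ) ≠ 0 := by
    have := Nat.factorial_ne_zero d
    positivity
  unfold avg
  rw [h1, h2, mul_div_mul_left _ _ h3]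

/-! ### transcendental energies -/

section trans

variable {E : ℝ} (hE : Transcendental ℤ E)

include hE

lemma isUnit_edge (ω : Om n q K) :
    IsUnit (cutMat (adjE ω.1 (ea ω) (eb ω)) (centres (front ω)) (E : ℂ)).det := by
  classical
  refine cutMat_isUnit hE (fun x y => if (x = ea ω ∧ y = eb ω) ∨ (x = eb ω ∧ y = ea ω) then 0
    else (if ω.1.Adj x y then 1 else 0)) _ ?_ _
  intro x y
  unfold adjE
  rw [adj_apply']
  split_ifs <;> simp

/-- **(E2)** at transcendental energies -/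
theorem cay_edgeMat' {ω : Om n q K} (hω : ω ∈ ZZs n (q + 1) (K + 1)) (hq : 0 < q)
    (hE4 : E ^ 2 < 4 * q) :
    cay (mE (q + 1) E) (edgeMat ω E)
      = Dl K q (wE q E) * cay (mE (q + 1) E) (comp (leadMat ω E)) * Dl K q (wE q E) :=
  cay_edgeMat hω hq hE4 (isUnit_edge hE ω) (cutMat_adj_isUnit hE _ _)

/-- **(E3)** at transcendental energies -/
theorem edge_close' {ω : Om n q K} (hω : ω ∈ ZZs n (q + 1) (K + 1)) :
    IsUnit ((edgeMat ω (E : ℂ)).toBlocks₂₂ + Jx).det ∧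
    leadMat (front ω) (E : ℂ) = (edgeMat ω (E : ℂ)).toBlocks₁₁
      - (edgeMat ω (E : ℂ)).toBlocks₁₂ * ((edgeMat ω (E : ℂ)).toBlocks₂₂ + Jx)⁻¹
        * (edgeMat ω (E : ℂ)).toBlocks₂₁ :=
  edge_close hω (isUnit_edge hE ω) (cutMat_adj_isUnit hE _ _)

end trans

/-! ### the phase `w` -/

lemma wE_sq (q : ℕ) (E : ℝ) : wE q E ^ 2 = q * mE (q + 1) E ^ 2 := by
  unfold wE
  rw [neg_sq, mul_pow, ← Complex.ofReal_pow, Real.sq_sqrt (Nat.cast_nonneg q)]
  simp

/-- `w² ≠ 1` in the bulk -/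
lemma wE_sq_ne {E : ℝ} (hq : 0 < q) (hE : E ^ 2 < 4 * q) : wE q E ^ 2 ≠ 1 := by
  intro h
  have him := mE_im_pos hq hE
  have h2 : wE q E = 1 ∨ wE q E = -1 := by
    rw [← one_pow 2] at h
    exact sq_eq_sq_iff_eq_or_eq_neg.mp h
  have h3 : (wE q E).im = -(Real.sqrt q * (mE (q + 1) E).im) := by
    unfold wE
    rw [Complex.neg_im, Complex.im_ofReal_mul]
  have hq' : 0 < Real.sqrt q := Real.sqrt_pos.mpr (by exact_mod_cast hq)
  have h4 : (wE q E).im = 0 := by
    rcases h2 with h2 | h2 <;> rw [h2] <;> simp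
  rw [h3] at h4
  nlinarith [mul_pos hq' him]

lemma continuous_mE (q : ℕ) : Continuous (fun E : ℝ => mE (q + 1) E) := by
  unfold mE
  fun_prop

lemma continuous_wE (q : ℕ) : Continuous (wE q) := by
  unfold wE
  exact (continuous_const.mul (continuous_mE q)).neg

end

end Vale.Agent.P156.H917
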