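import Vale.Agent.P156.H917.Edge2

/-!
(E2), Cayley form: the scattering matrix of the edge system.
-/

open Matrix
open scoped ComplexConjugate

namespace Vale.Agent.P156.H917

noncomputable section

section general

variable {J : Type*} [Fintype J] [DecidableEq J]

/-- `M - c` is invertible for Hermitian `M` and non real `c`. -/
lemma isUnit_sub_of_isHermitian {M : Matrix J J ℂ} (hM : M.IsHermitian) {c : ℂ} (hc : c.im ≠ 0) :
    IsUnit (M - c • (1 : Matrix J J ℂ)).det := by
  rw [isUnit_iff_ne_zero]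
  intro h
  obtain ⟨v, hv, hMv⟩ := Matrix.exists_mulVec_eq_zero_iff.mpr h
  rw [Matrix.sub_mulVec, Matrix.smul_mulVec, Matrix.one_mulVec, sub_eq_zero] at hMv
  have h1 : star v ⬝ᵥ M.mulVec v = c * (star v ⬝ᵥ v) := by
    rw [hMv, dotProduct_smul, smul_eq_mul]
  have h2 : (star v ⬝ᵥ M.mulVec v).im = 0 := hM.im_star_dotProduct_mulVec_self v
  have h3 : (star v ⬝ᵥ v) = ((∑ i, ‖v i‖ ^ 2 : ℝ) : ℂ) := by
    rw [dotProduct]
    push_cast
    refine Finset.sum_congr rfl fun i _ => ?_
    rw [Pi.star_apply, Complex.star_def, mul_comm, Complex.mul_conj, Complex.normSq_eq_norm_sq]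
    push_cast; rfl
  rw [h1, h3, Complex.mul_im] at h2
  simp only [Complex.ofReal_re, Complex.ofReal_im, mul_zero, zero_add] at h2
  have h4 : ∑ i, ‖v i‖ ^ 2 = 0 := by
    rcases mul_eq_zero.mp h2 with h | h
    · exact absurd h hc
    · exact h
  apply hv
  funext i
  have := (Finset.sum_eq_zero_iff_of_nonneg (fun i _ => sq_nonneg ‖v i‖)).mp h4 i
    (Finset.mem_univ i)
  simpa using this

/-- the abstract form of `A2`: `s` is `√q`, `a` is the new lead. -/
lemma cay_ins (a : J) {s z m : ℂ} (hs : s ≠ 0) (hm : s ^ 2 * m ^ 2 + z * m + 1 = 0)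
    (hm' : s ^ 2 * (conj m) ^ 2 + z * conj m + 1 = 0) (hsm : (s * m) * (s * conj m) = 1)
    {R B : Matrix J J ℂ}
    (hB : IsUnit (B - conj m • (1 : Matrix J J ℂ)).det)
    (hrel : R * (diagonal (fun i => if i = a then z / s else 1)
        + diagonal (fun i => if i = a then s else 0) * B)
      = diagonal (fun i => if i = a then -s⁻¹ else 0)
        + diagonal (fun i => if i = a then 0 else 1) * B) :
    cay m R = diagonal (fun i => if i = a then -(s * m) else 1) * cay m B
      * diagonal (fun i => if i = a then -(s * m) else 1) := by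
  set P : Matrix J J ℂ := diagonal (fun i => if i = a then z / s else 1) with hP
  set Q : Matrix J J ℂ := diagonal (fun i => if i = a then s else 0) with hQ
  set N := P + Q * B with hN
  have key : ∀ μ : ℂ, s ^ 2 * μ ^ 2 + z * μ + 1 = 0 →
      (R - μ • (1 : Matrix J J ℂ)) * N
        = diagonal (fun i => if i = a then -(s * μ) else 1) * (B - μ • (1 : Matrix J J ℂ)) := by
    intro μ hμ
    rw [Matrix.sub_mul, hrel, Matrix.smul_mul, Matrix.one_mul, hN, hP, hQ]
    ext i j
    simp only [Matrix.sub_apply, Matrix.add_apply, Matrix.smul_apply, Matrix.diagonal_mul,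
      Matrix.one_apply, Matrix.diagonal_apply, smul_eq_mul]
    by_cases hi : i = a
    · subst hi
      by_cases hj : i = j
      · subst hj
        simp only [if_true]
        field_simp
        linear_combination -hμ
      · simp only [if_true, hj, if_false]
        ring
    · by_cases hj : i = j
      · subst hj
        simp only [hi, if_true, if_false]
        ring
      · simp only [hi, hj, if_false]
        ring
  have k1 := key m hm
  have k2 := key (conj m) hm'
  set Δ : Matrix J J ℂ := diagonal (fun i => if i = a then -(s * m) else 1) with hΔ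
  set Δ' : Matrix J J ℂ := diagonal (fun i => if i = a then -(s * conj m) else 1) with hΔ'
  have hΔΔ : Δ' * Δ = 1 := by
    rw [hΔ, hΔ', diagonal_mul_diagonal, ← diagonal_one]
    congr 1
    funext i
    split_ifs
    · linear_combination hsm
    · ring
  have hΔΔ2 : Δ * Δ' = 1 := by
    rw [hΔ, hΔ', diagonal_mul_diagonal, ← diagonal_one]
    congr 1
    funext i
    split_ifs
    · linear_combination hsm
    · ring
  unfold cay
  rw [starRingEnd_apply, ← starRingEnd_apply]
  set X := R - conj m • (1 : Matrix J J ℂ) with hX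
  set Y := B - conj m • (1 : Matrix J J ℂ) with hY
  -- `X N = Δ' Y`
  have e1 : X⁻¹ = N * Y⁻¹ * Δ := by
    have : X * (N * Y⁻¹ * Δ) = 1 := by
      rw [← Matrix.mul_assoc, ← Matrix.mul_assoc, k2, Matrix.mul_assoc Δ' Y,
        Matrix.mul_nonsing_inv _ hB, Matrix.mul_one, hΔΔ]
    exact Matrix.inv_eq_right_inv this
  rw [e1, ← Matrix.mul_assoc, ← Matrix.mul_assoc, k1]
  simp only [Matrix.mul_assoc]

end general

/-! ### The isometry `W` -/

variable {n q K : ℕ}

/-- the isometry from the leads of the edge system (with `a` standing for the normalised sum of the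
first `q` leads of the last star) to the leads of `K + 1` stars -/
def Wm (q K : ℕ) : Matrix (Fin (K + 1) × Fin (q + 1)) ((Fin K × Fin (q + 1)) ⊕ Fin 2) ℝ :=
  fun p => Sum.elim (fun x => if p = (x.1.castSucc, x.2) then 1 else 0)
    (fun i => if i = 0 then (Real.sqrt q)⁻¹ * ∑ k : Fin q, (if p = (Fin.last K, k.castSucc)
      then 1 else 0) else if p = (Fin.last K, Fin.last q) then 1 else 0)

lemma Wm_emb (p : Fin (K + 1) × Fin (q + 1)) (x : (Fin K × Fin (q + 1)) ⊕ Unit) :
    Wm q K p (emb x) = if p = oth x then 1 else 0 := by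
  rcases x with x | x
  · rfl
  · simp only [Wm, emb, oth, Sum.elim_inr, if_false, one_ne_zero]
    rfl

lemma Wm_zero (p : Fin (K + 1) × Fin (q + 1)) :
    Wm q K p (Sum.inr 0) = (Real.sqrt q)⁻¹ * ∑ k : Fin q, if p = sib k then 1 else 0 := by
  simp only [Wm, sib, Sum.elim_inr, if_true]
  rfl

lemma cases_J (j : (Fin K × Fin (q + 1)) ⊕ Fin 2) : j = Sum.inr 0 ∨ ∃ x, j = emb x := by
  rcases j with x | i
  · exact Or.inr ⟨Sum.inl x, rfl⟩
  · fin_cases i
    · exact Or.inl rfl
    · exact Or.inr ⟨Sum.inr (), rfl⟩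

lemma emb_ne_zero (x : (Fin K × Fin (q + 1)) ⊕ Unit) : emb x ≠ Sum.inr 0 := by
  rcases x with x | x <;> simp [emb]

lemma emb_injective : Function.Injective (emb : (Fin K × Fin (q + 1)) ⊕ Unit → _) := by
  rintro (x | x) (y | y) h <;> simp_all [emb]

lemma oth_injective : Function.Injective (oth : (Fin K × Fin (q + 1)) ⊕ Unit → _) := by
  rintro (x | x) (y | y) h
  · simp only [oth, Sum.elim_inl, Prod.mk.injEq, Fin.castSucc_inj] at h
    rw [Prod.ext_iff.mpr h]
  · simp only [oth, Sum.elim_inl, Sum.elim_inr, Prod.mk.injEq] at h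
    exact absurd h.1 (Fin.castSucc_lt_last x.1).ne
  · simp only [oth, Sum.elim_inl, Sum.elim_inr, Prod.mk.injEq] at h
    exact absurd h.1.symm (Fin.castSucc_lt_last y.1).ne
  · rfl

lemma sib_injective : Function.Injective (sib : Fin q → Fin (K + 1) × Fin (q + 1)) := by
  intro k k' h
  simp only [sib, Prod.mk.injEq, Fin.castSucc_inj, true_and] at h
  exact h

lemma sib_ne_oth (k : Fin q) (x : (Fin K × Fin (q + 1)) ⊕ Unit) : sib k ≠ oth x := by
  rcases x with x | x
  · simp only [sib, oth, Sum.elim_inl, ne_eq, Prod.mk.injEq, not_and]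
    intro h
    exact absurd h.symm (Fin.castSucc_lt_last x.1).ne
  · simp only [sib, oth, Sum.elim_inr, ne_eq, Prod.mk.injEq, not_and]
    intro _ h
    exact absurd h (Fin.castSucc_lt_last k).ne

/-- the compression of a matrix on the leads of `K + 1` stars -/
def comp (R : Matrix (Fin (K + 1) × Fin (q + 1)) (Fin (K + 1) × Fin (q + 1)) ℂ) :
    Matrix ((Fin K × Fin (q + 1)) ⊕ Fin 2) ((Fin K × Fin (q + 1)) ⊕ Fin 2) ℂ :=
  ((Wm q K).map (algebraMap ℝ ℂ))ᵀ * R * (Wm q K).map (algebraMap ℝ ℂ)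

lemma mul_W_emb {β : Type*} (R : Matrix β (Fin (K + 1) × Fin (q + 1)) ℂ) (p : β)
    (x : (Fin K × Fin (q + 1)) ⊕ Unit) :
    (R * (Wm q K).map (algebraMap ℝ ℂ)) p (emb x) = R p (oth x) := by
  rw [Matrix.mul_apply]
  simp only [Matrix.map_apply, Wm_emb]
  rw [Finset.sum_eq_single (oth x)]
  · simp
  · intro b _ hb
    simp [hb]
  · simp

lemma mul_W_zero {β : Type*} (R : Matrix β (Fin (K + 1) × Fin (q + 1)) ℂ) (p : β) :
    (R * (Wm q K).map (algebraMap ℝ ℂ)) p (Sum.inr 0)
      = ((Real.sqrt q : ℝ) : ℂ)⁻¹ * ∑ k, R p (sib k) := by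
  rw [Matrix.mul_apply]
  simp only [Matrix.map_apply, Wm_zero]
  have : ∀ x, R p x * algebraMap ℝ ℂ ((Real.sqrt q)⁻¹ * ∑ k : Fin q, if x = sib k then 1 else 0)
      = ((Real.sqrt q : ℝ) : ℂ)⁻¹ * ∑ k : Fin q, (if x = sib k then R p (sib k) else 0) := by
    intro x
    rw [map_mul, map_sum, Complex.coe_algebraMap, Complex.ofReal_inv]
    rw [mul_left_comm, Finset.mul_sum]
    congr 1
    refine Finset.sum_congr rfl fun k _ => ?_
    split_ifs with h
    · rw [h]; simp
    · simp
  rw [Finset.sum_congr rfl fun x _ => this x, ← Finset.mul_sum, Finset.sum_comm]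
  congr 1
  refine Finset.sum_congr rfl fun k _ => ?_
  simp

lemma W_mul_emb {β : Type*} (R : Matrix (Fin (K + 1) × Fin (q + 1)) β ℂ) (y : β)
    (x : (Fin K × Fin (q + 1)) ⊕ Unit) :
    (((Wm q K).map (algebraMap ℝ ℂ))ᵀ * R) (emb x) y = R (oth x) y := by
  rw [Matrix.mul_apply]
  simp only [Matrix.transpose_apply, Matrix.map_apply, Wm_emb]
  rw [Finset.sum_eq_single (oth x)]
  · simp
  · intro b _ hb
    simp [hb]
  · simp

lemma W_mul_zero {β : Type*} (R : Matrix (Fin (K + 1) × Fin (q + 1)) β ℂ) (y : β) :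
    (((Wm q K).map (algebraMap ℝ ℂ))ᵀ * R) (Sum.inr 0) y
      = ((Real.sqrt q : ℝ) : ℂ)⁻¹ * ∑ k, R (sib k) y := by
  rw [Matrix.mul_apply]
  simp only [Matrix.transpose_apply, Matrix.map_apply, Wm_zero]
  have : ∀ x, algebraMap ℝ ℂ ((Real.sqrt q)⁻¹ * ∑ k : Fin q, if x = sib k then 1 else 0) * R x y
      = ((Real.sqrt q : ℝ) : ℂ)⁻¹ * ∑ k : Fin q, (if x = sib k then R (sib k) y else 0) := by
    intro x
    rw [map_mul, map_sum, Complex.coe_algebraMap, Complex.ofReal_inv]
    rw [mul_assoc, Finset.sum_mul]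
    congr 1
    refine Finset.sum_congr rfl fun k _ => ?_
    split_ifs with h
    · rw [h]; simp
    · simp
  rw [Finset.sum_congr rfl fun x _ => this x, ← Finset.mul_sum, Finset.sum_comm]
  congr 1
  refine Finset.sum_congr rfl fun k _ => ?_
  simp

section comp

variable (R : Matrix (Fin (K + 1) × Fin (q + 1)) (Fin (K + 1) × Fin (q + 1)) ℂ)

lemma comp_emb_emb (x y : (Fin K × Fin (q + 1)) ⊕ Unit) :
    comp R (emb x) (emb y) = R (oth x) (oth y) := by
  unfold comp
  rw [mul_W_emb, W_mul_emb]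

lemma comp_emb_zero (x : (Fin K × Fin (q + 1)) ⊕ Unit) :
    comp R (emb x) (Sum.inr 0) = ((Real.sqrt q : ℝ) : ℂ)⁻¹ * ∑ k, R (oth x) (sib k) := by
  unfold comp
  rw [mul_W_zero]
  simp only [W_mul_emb]

lemma comp_zero_emb (x : (Fin K × Fin (q + 1)) ⊕ Unit) :
    comp R (Sum.inr 0) (emb x) = ((Real.sqrt q : ℝ) : ℂ)⁻¹ * ∑ k, R (sib k) (oth x) := by
  unfold comp
  rw [mul_W_emb, W_mul_zero]

lemma comp_zero_zero : comp R (Sum.inr 0) (Sum.inr 0)
    = ((Real.sqrt q : ℝ) : ℂ)⁻¹ * (((Real.sqrt q : ℝ) : ℂ)⁻¹ *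
      ∑ k, ∑ k', R (sib k) (sib k')) := by
  unfold comp
  rw [mul_W_zero]
  simp only [W_mul_zero]
  rw [← Finset.mul_sum, Finset.sum_comm]

end comp

/-- `W` is an isometry -/
lemma Wm_isometry (hq : 0 < q) : (Wm q K)ᵀ * Wm q K = 1 := by
  have hs : (Real.sqrt q)⁻¹ * ((Real.sqrt q)⁻¹ * (q : ℝ)) = 1 := by
    have h1 : Real.sqrt q * Real.sqrt q = q := Real.mul_self_sqrt (Nat.cast_nonneg q)
    have h2 : Real.sqrt q ≠ 0 := by
      rw [Real.sqrt_ne_zero']; exact_mod_cast hq
    field_simp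
    nlinarith
  have h : ((Wm q K)ᵀ * Wm q K).map (algebraMap ℝ ℂ) = 1 := by
    rw [Matrix.map_mul]
    have e1 : (Wm q K)ᵀ.map (algebraMap ℝ ℂ) = ((Wm q K).map (algebraMap ℝ ℂ))ᵀ := rfl
    have e2 : ((Wm q K).map (algebraMap ℝ ℂ))ᵀ * (Wm q K).map (algebraMap ℝ ℂ)
        = comp (1 : Matrix (Fin (K + 1) × Fin (q + 1)) (Fin (K + 1) × Fin (q + 1)) ℂ) := by
      unfold comp
      rw [Matrix.mul_one]
    rw [e1, e2]
    ext i j
    rcases cases_J i with rfl | ⟨x, rfl⟩
    · rcases cases_J j with rfl | ⟨y, rfl⟩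
      · rw [comp_zero_zero, Matrix.one_apply_eq]
        have : ∀ k : Fin q, ∑ k' : Fin q, (1 : Matrix (Fin (K + 1) × Fin (q + 1))
            (Fin (K + 1) × Fin (q + 1)) ℂ) (sib k) (sib k') = 1 := by
          intro k
          rw [Finset.sum_eq_single k]
          · simp
          · intro k' _ hk'
            rw [Matrix.one_apply_ne]
            intro h
            exact hk' (sib_injective h).symm
          · simp
        rw [Finset.sum_congr rfl fun k _ => this k]
        simp only [Finset.sum_const, Finset.card_univ, Fintype.card_fin, nsmul_eq_mul, mul_one]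
        exact_mod_cast congrArg (algebraMap ℝ ℂ) hs
      · rw [comp_zero_emb, Matrix.one_apply_ne (Ne.symm (emb_ne_zero y))]
        rw [Finset.sum_eq_zero, mul_zero]
        intro k _
        exact Matrix.one_apply_ne (sib_ne_oth k y)
    · rcases cases_J j with rfl | ⟨y, rfl⟩
      · rw [comp_emb_zero, Matrix.one_apply_ne (emb_ne_zero x)]
        rw [Finset.sum_eq_zero, mul_zero]
        intro k _
        exact Matrix.one_apply_ne (Ne.symm (sib_ne_oth k x))
      · rw [comp_emb_emb]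
        by_cases hxy : x = y
        · subst hxy; simp
        · rw [Matrix.one_apply_ne (fun h => hxy (oth_injective h)),
            Matrix.one_apply_ne (fun h => hxy (emb_injective h))]
  ext i j
  have := congrFun (congrFun h i) j
  rw [Matrix.map_apply, Matrix.one_apply, Complex.coe_algebraMap] at this
  rw [Matrix.one_apply]
  split_ifs at this ⊢ <;> exact_mod_cast this

/-! ### Hermitian resolvents -/

lemma cutMat_isHermitian {V : Type*} [DecidableEq V] {A : Matrix V V ℝ}
    (hA : ∀ x y, A x y = A y x) (D : Finset V) (E : ℝ) : (cutMat A D (E : ℂ)).IsHermitian := by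
  ext x y
  rw [Matrix.conjTranspose_apply]
  unfold cutMat
  rw [hA y x]
  simp only [or_comm (a := y ∈ D), eq_comm (a := y)]
  split_ifs <;> simp

lemma resD_isHermitian {V : Type*} [Fintype V] [DecidableEq V] {A : Matrix V V ℝ}
    (hA : ∀ x y, A x y = A y x) (D : Finset V) (E : ℝ) : (resD A D (E : ℂ)).IsHermitian := by
  unfold resD Matrix.IsHermitian
  rw [Matrix.conjTranspose_nonsing_inv, cutMat_isHermitian hA D E]

lemma adj_symm' {n : ℕ} (G : SimpleGraph (Fin n)) (x y : Fin n) : adj G x y = adj G y x := by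
  classical
  rw [adj_apply', adj_apply']
  simp only [G.adj_comm x y]

lemma leadMat_isHermitian {n d K : ℕ} (ω : SimpleGraph (Fin n) × StarPos n d K) (E : ℝ) :
    (leadMat ω (E : ℂ)).IsHermitian :=
  (resD_isHermitian (adj_symm' ω.1) _ E).submatrix _

lemma edgeMat_isHermitian (ω : Om n q K) (E : ℝ) : (edgeMat ω (E : ℂ)).IsHermitian :=
  (resD_isHermitian (adjE_symm ω.1 _ _) _ E).submatrix _

lemma comp_isHermitian {R : Matrix (Fin (K + 1) × Fin (q + 1)) (Fin (K + 1) × Fin (q + 1)) ℂ}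
    (hR : R.IsHermitian) : (comp R).IsHermitian := by
  have h : ((Wm q K).map (algebraMap ℝ ℂ))ᵀ = ((Wm q K).map (algebraMap ℝ ℂ))ᴴ := by
    ext i j; simp
  unfold comp
  rw [h]
  exact Matrix.isHermitian_conjTranspose_mul_mul _ hR

/-! ### The scattering matrix of the edge system -/

section tree

variable {E : ℝ}

lemma four_q (q : ℕ) (hE : E ^ 2 < 4 * q) :
    (0:ℝ) < 4 * (((q + 1 : ℕ) : ℝ) - 1) - E ^ 2 := by
  push_cast
  linarith

lemma mE_eq (q : ℕ) (E : ℝ) : mE (q + 1) E
    = (-(E : ℂ) + (Real.sqrt (4 * q - E ^ 2) : ℂ) * Complex.I) / (2 * (q : ℂ)) := by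
  unfold mE
  push_cast
  simp only [add_sub_cancel_right]

lemma mE_re (hq : 0 < q) : (mE (q + 1) E).re = -E / (2 * q) := by
  have hq' : (q : ℝ) ≠ 0 := by positivity
  rw [mE_eq]
  have : (2 * (q : ℂ)) = ((2 * q : ℝ) : ℂ) := by push_cast; ring
  rw [this, Complex.div_ofReal_re]
  simp

lemma mE_im (hq : 0 < q) : (mE (q + 1) E).im = Real.sqrt (4 * q - E ^ 2) / (2 * q) := by
  have hq' : (q : ℝ) ≠ 0 := by positivity
  rw [mE_eq]
  have : (2 * (q : ℂ)) = ((2 * q : ℝ) : ℂ) := by push_cast; ring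
  rw [this, Complex.div_ofReal_im]
  simp

lemma mE_im_pos (hq : 0 < q) (hE : E ^ 2 < 4 * q) : 0 < (mE (q + 1) E).im := by
  rw [mE_im hq]
  have : 0 < 4 * (q : ℝ) - E ^ 2 := by linarith
  positivity

lemma mE_quad (hq : 0 < q) (hE : E ^ 2 < 4 * q) :
    (q : ℂ) * mE (q + 1) E ^ 2 + E * mE (q + 1) E + 1 = 0 := by
  have hq' : (q : ℂ) ≠ 0 := by exact_mod_cast hq.ne'
  have h1 : ((Real.sqrt (4 * q - E ^ 2) : ℝ) : ℂ) ^ 2 = 4 * q - E ^ 2 := by
    rw [← Complex.ofReal_pow, Real.sq_sqrt (by linarith)]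
    push_cast; ring
  rw [mE_eq]
  field_simp
  have hI : Complex.I ^ 2 = -1 := Complex.I_sq
  linear_combination (Complex.I ^ 2) * h1 + (4 * q - (E:ℂ) ^ 2) * hI

lemma mE_norm_sq (hq : 0 < q) (hE : E ^ 2 < 4 * q) :
    (q : ℂ) * (mE (q + 1) E * conj (mE (q + 1) E)) = 1 := by
  have hq' : (q : ℝ) ≠ 0 := by positivity
  rw [Complex.mul_conj, Complex.normSq_apply, mE_re hq, mE_im hq]
  have h1 : Real.sqrt (4 * q - E ^ 2) * Real.sqrt (4 * q - E ^ 2) = 4 * q - E ^ 2 :=
    Real.mul_self_sqrt (by linarith)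
  have : (q : ℝ) * (-E / (2 * q) * (-E / (2 * q)) + Real.sqrt (4 * q - E ^ 2) / (2 * q)
      * (Real.sqrt (4 * q - E ^ 2) / (2 * q))) = 1 := by
    have h2 : (q : ℝ) * (-E / (2 * q) * (-E / (2 * q)) + Real.sqrt (4 * q - E ^ 2) / (2 * q)
        * (Real.sqrt (4 * q - E ^ 2) / (2 * q)))
        = (E ^ 2 + Real.sqrt (4 * q - E ^ 2) * Real.sqrt (4 * q - E ^ 2)) / (4 * q) := by
      field_simp
      ring
    rw [h2, h1]
    field_simp
    ring
  exact_mod_cast this

end tree

/-- the phase matrix at the new lead `a` -/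
def Dl (K q : ℕ) (w : ℂ) : Matrix ((Fin K × Fin (q + 1)) ⊕ Fin 2) ((Fin K × Fin (q + 1)) ⊕ Fin 2) ℂ :=
  Matrix.diagonal (fun i => if i = Sum.inr 0 then w else 1)

/-- the phase -/
def wE (q : ℕ) (E : ℝ) : ℂ := -((Real.sqrt q : ℝ) * mE (q + 1) E)

lemma norm_wE {E : ℝ} (hq : 0 < q) (hE : E ^ 2 < 4 * q) : ‖wE q E‖ = 1 := by
  have h := mE_norm_sq hq hE
  rw [Complex.mul_conj, Complex.normSq_eq_norm_sq] at h
  have h2 : (q : ℝ) * ‖mE (q + 1) E‖ ^ 2 = 1 := by exact_mod_cast h
  have h3 : ‖wE q E‖ ^ 2 = 1 := by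
    unfold wE
    rw [norm_neg, norm_mul, mul_pow, Complex.norm_real, Real.norm_eq_abs, sq_abs,
      Real.sq_sqrt (Nat.cast_nonneg q), h2]
  have h4 : 0 ≤ ‖wE q E‖ := norm_nonneg _
  nlinarith [sq_nonneg (‖wE q E‖ - 1)]

/-- **(E2)** the scattering matrix of the edge system. -/
theorem cay_edgeMat {ω : Om n q K} (hω : ω ∈ ZZs n (q + 1) (K + 1)) {E : ℝ} (hq : 0 < q)
    (hE : E ^ 2 < 4 * q)
    (h1 : IsUnit (cutMat (adjE ω.1 (ea ω) (eb ω)) (centres (front ω)) (E : ℂ)).det)
    (h0 : IsUnit (cutMat (adj ω.1) (centres ω) (E : ℂ)).det) :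
    cay (mE (q + 1) E) (edgeMat ω E)
      = Dl K q (wE q E) * cay (mE (q + 1) E) (comp (leadMat ω E)) * Dl K q (wE q E) := by
  set s : ℂ := ((Real.sqrt q : ℝ) : ℂ) with hs
  set m := mE (q + 1) E with hm
  have hs2 : s ^ 2 = q := by
    rw [hs, ← Complex.ofReal_pow, Real.sq_sqrt (Nat.cast_nonneg q)]; simp
  have hs0 : s ≠ 0 := by
    intro h
    rw [h] at hs2
    have : (q : ℂ) ≠ 0 := by exact_mod_cast hq.ne'
    exact this (by rw [← hs2]; ring)
  have hquad := mE_quad hq hE
  rw [← hm] at hquad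
  have hquad' : (q : ℂ) * (conj m) ^ 2 + E * conj m + 1 = 0 := by
    have := congrArg conj hquad
    simpa using this
  have hnorm := mE_norm_sq hq hE
  rw [← hm] at hnorm
  have hmim : (conj m).im ≠ 0 := by
    rw [Complex.conj_im]
    have := mE_im_pos hq hE
    rw [← hm] at this
    linarith
  have := cay_ins (J := (Fin K × Fin (q + 1)) ⊕ Fin 2) (Sum.inr 0) (s := s) (z := (E : ℂ)) (m := m)
    hs0 (by rw [hs2]; exact hquad) (by rw [hs2]; exact hquad')
    (by linear_combination (m * conj m) * hs2 + hnorm)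
    (R := edgeMat ω E) (B := comp (leadMat ω E))
    (isUnit_sub_of_isHermitian (comp_isHermitian (leadMat_isHermitian ω E)) hmim) ?_
  · rw [this]
    rfl
  · -- the relation
    have haa := edge_aa hω h1 h0
    set g := edgeMat ω E (Sum.inr 0) (Sum.inr 0) with hg
    set σ := ∑ k : Fin q, ∑ k' : Fin q, leadMat ω E (sib k) (sib k') with hσ
    ext i j
    rw [Matrix.mul_add, Matrix.add_apply, Matrix.mul_diagonal, Matrix.add_apply,
      Matrix.diagonal_apply, Matrix.diagonal_mul]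
    have e1 : ((edgeMat ω (E : ℂ)) * ((Matrix.diagonal (fun i : (Fin K × Fin (q + 1)) ⊕ Fin 2 =>
        if i = Sum.inr 0 then s else 0) : Matrix _ _ ℂ)
        * comp (leadMat ω (E : ℂ))) : Matrix _ _ ℂ) i j = edgeMat ω E i (Sum.inr 0) * s
          * comp (leadMat ω E) (Sum.inr 0) j := by
      rw [Matrix.mul_apply, Finset.sum_eq_single (Sum.inr 0)]
      · rw [Matrix.diagonal_mul, if_pos rfl]; ring
      · intro b _ hb
        rw [Matrix.diagonal_mul, if_neg hb]; ring
      · simp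
    rw [e1]
    rcases cases_J j with rfl | ⟨y, rfl⟩
    · rw [comp_zero_zero, ← hs, ← hσ]
      rcases cases_J i with rfl | ⟨x, rfl⟩
      · simp only [if_true]
        rw [← hg]
        field_simp
        linear_combination -haa
      · rw [if_neg (emb_ne_zero x), comp_emb_zero, ← hs, if_neg (emb_ne_zero x), if_pos rfl,
          edge_xa hω h1 h0, ← hg]
        field_simp
        linear_combination (∑ k, leadMat ω E (oth x) (sib k)) * haa
    · rw [if_neg (emb_ne_zero y), comp_zero_emb, ← hs]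
      rcases cases_J i with rfl | ⟨x, rfl⟩
      · rw [if_neg (Ne.symm (emb_ne_zero y)), edge_ax hω h1 h0, ← hg]
        simp only [if_true]
        field_simp
        ring
      · rw [comp_emb_emb, edge_xy hω h1 h0, edge_xa hω h1 h0, ← hg]
        simp only [if_neg (emb_ne_zero x)]
        rw [show (if emb x = emb y then (0:ℂ) else 0) = 0 by split_ifs <;> rfl]
        field_simp
        ring

end

end Vale.Agent.P156.H917
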