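import Vale.Agent.P156.H167.Bridge
import Vale.Agent.P156.H574.Cont
import Vale.Agent.P156.H574.Equi

/-!
Compression of scattering matrices by a real isometry, and the law of the compression.
-/

open Matrix MeasureTheory Filter Topology
open scoped ComplexConjugate

namespace Vale.Agent.P156.H917

open Vale.Agent.P156

noncomputable section

variable {V J : Type} [Fintype V] [DecidableEq V] [Fintype J] [DecidableEq J]

lemma smul_mul_smul_inv {c : ℂ} (hc : c ≠ 0) (X Y : Matrix V V ℂ) :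
    (c • X) * (c • Y)⁻¹ = X * Y⁻¹ := by
  by_cases hY : IsUnit Y.det
  · have h1 : (c • Y)⁻¹ = c⁻¹ • Y⁻¹ := by
      apply Matrix.inv_eq_right_inv
      rw [Matrix.smul_mul, Matrix.mul_smul, smul_smul, mul_inv_cancel₀ hc, one_smul,
        Matrix.mul_nonsing_inv _ hY]
    rw [h1, Matrix.smul_mul, Matrix.mul_smul, smul_smul, mul_inv_cancel₀ hc, one_smul]
  · have h2 : ¬ IsUnit (c • Y).det := by
      rw [Matrix.det_smul]
      intro h
      exact hY (isUnit_of_mul_isUnit_right h)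
    rw [Matrix.nonsing_inv_apply_not_isUnit _ hY, Matrix.nonsing_inv_apply_not_isUnit _ h2,
      Matrix.mul_zero, Matrix.mul_zero]

/-- the Cayley transform depends on `m` only through an affine change of variable -/
lemma cay_affine {m : ℂ} (hm : m.im ≠ 0) (R : Matrix V V ℂ) :
    cay m R = cay Complex.I (((m.im : ℂ)⁻¹) • (R - (m.re : ℂ) • (1 : Matrix V V ℂ))) := by
  have hc : (m.im : ℂ) ≠ 0 := by exact_mod_cast hm
  have e1 : R - m • (1 : Matrix V V ℂ) = (m.im : ℂ) • (((m.im : ℂ)⁻¹) •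
      (R - (m.re : ℂ) • (1 : Matrix V V ℂ)) - Complex.I • (1 : Matrix V V ℂ)) := by
    rw [smul_sub, smul_smul, mul_inv_cancel₀ hc, one_smul, smul_smul, sub_sub, ← add_smul,
      Complex.re_add_im]
  have e2 : R - (conj m) • (1 : Matrix V V ℂ) = (m.im : ℂ) • (((m.im : ℂ)⁻¹) •
      (R - (m.re : ℂ) • (1 : Matrix V V ℂ)) - (conj Complex.I) • (1 : Matrix V V ℂ)) := by
    rw [smul_sub, smul_smul, mul_inv_cancel₀ hc, one_smul, smul_smul, sub_sub, ← add_smul]
    congr 2
    apply Complex.ext <;> simp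
  unfold cay
  rw [e1, e2, smul_mul_smul_inv hc]

lemma affine_herm {R : Matrix V V ℂ} (hR : Rᴴ = R) (a b : ℝ) :
    ((a : ℂ) • (R - (b : ℂ) • (1 : Matrix V V ℂ)))ᴴ
      = (a : ℂ) • (R - (b : ℂ) • (1 : Matrix V V ℂ)) := by
  rw [conjTranspose_smul, conjTranspose_sub, conjTranspose_smul, conjTranspose_one, hR]
  simp

/-- compression of a scattering matrix -/
def cmpM (P : Matrix V J ℝ) (S : Matrix V V ℂ) : Matrix J J ℂ :=
  cay Complex.I ((A.toC P)ᵀ * A.uncay Complex.I S * A.toC P)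

lemma toC_isometry {P : Matrix V J ℝ} (hP : Pᵀ * P = 1) : (A.toC P)ᵀ * A.toC P = 1 := by
  have h := congrArg (fun M : Matrix J J ℝ => M.map (algebraMap ℝ ℂ)) hP
  simp only [Matrix.map_mul] at h
  rw [Matrix.map_one _ (map_zero _) (map_one _)] at h
  exact h

theorem cay_compress' {P : Matrix V J ℝ} (hP : Pᵀ * P = 1) {m : ℂ} (hm : m.im ≠ 0)
    {R : Matrix V V ℂ} (hR : Rᴴ = R) :
    cay m ((A.toC P)ᵀ * R * A.toC P) = cmpM P (cay m R) := by
  have hI : (Complex.I).im ≠ 0 := by simp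
  have hX : (((m.im : ℂ)⁻¹) • (R - (m.re : ℂ) • (1 : Matrix V V ℂ)))ᴴ
      = ((m.im : ℂ)⁻¹) • (R - (m.re : ℂ) • (1 : Matrix V V ℂ)) := by
    have := affine_herm hR (m.im)⁻¹ m.re
    rwa [Complex.ofReal_inv] at this
  rw [cmpM, cay_affine hm R, A.uncay_cay hX hI, cay_affine hm]
  congr 1
  rw [Matrix.mul_smul, Matrix.smul_mul, Matrix.mul_sub, Matrix.sub_mul, Matrix.mul_smul,
    Matrix.smul_mul, Matrix.mul_one, toC_isometry hP]

/-- where the compression is well behaved -/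
def goodS1 (V : Type) [Fintype V] [DecidableEq V] : Set (F.SymU V) := {S | IsUnit (1 - S.1).det}

lemma isOpen_goodS1 : IsOpen (goodS1 V) := by
  have h : goodS1 V = (fun S : F.SymU V => (1 - S.1).det) ⁻¹' {z | z ≠ 0} := by
    ext S
    simp only [goodS1, Set.mem_ofPred_eq, Set.mem_preimage, isUnit_iff_ne_zero]
  rw [h]
  refine IsOpen.preimage ?_ isOpen_ne
  exact (continuous_const.sub continuous_subtype_val).matrix_det

lemma cmp_realSymm (P : Matrix V J ℝ) {S : F.SymU V} (hS : S ∈ goodS1 V) :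
    A.RealSymm ((A.toC P)ᵀ * A.uncay Complex.I S.1 * A.toC P) := by
  obtain ⟨h1, h2⟩ := A.uncay_realSymm (m := Complex.I) S.2.1 S.2.2 hS
  constructor
  · rw [conjTranspose_mul, conjTranspose_mul, h1, A.toC_conjTranspose,
      ← A.toC_conjTranspose, conjTranspose_conjTranspose, Matrix.mul_assoc, A.toC_conjTranspose]
  · rw [transpose_mul, transpose_mul, h2, transpose_transpose, Matrix.mul_assoc]

lemma cmpM_mem (P : Matrix V J ℝ) {S : F.SymU V} (hS : S ∈ goodS1 V) :
    cmpM P S.1 ∈ F.symU J :=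
  H167.cay_mem_symU (by simp) (cmp_realSymm P hS)

open Classical in
/-- the compression on `F.SymU` (junk value `1`) -/
def cmpS (P : Matrix V J ℝ) : F.SymU V → F.SymU J :=
  (goodS1 V).piecewise (fun S => H167.toSU (cmpM P S.1)) (fun _ => H167.toSU 1)

lemma cmpS_of_mem (P : Matrix V J ℝ) {S : F.SymU V} (hS : S ∈ goodS1 V) :
    cmpS P S = H167.toSU (cmpM P S.1) := by
  classical
  rw [cmpS, Set.piecewise_eq_of_mem _ _ _ hS]

lemma continuousOn_toSU_cmpM (P : Matrix V J ℝ) :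
    ContinuousOn (fun S : F.SymU V => H167.toSU (cmpM P S.1)) (goodS1 V) := by
  have h1 : ContinuousOn (fun S : F.SymU V => cmpM P S.1) (goodS1 V) := by
    have h3 : ContinuousOn (fun S : F.SymU V => A.uncay Complex.I S.1) (goodS1 V) :=
      (A.continuousOn_uncay (ι := V) Complex.I).comp
        (continuous_subtype_val (p := fun S => S ∈ F.symU V)).continuousOn (fun S hS => hS)
    have h2 : ContinuousOn (fun S : F.SymU V => (A.toC P)ᵀ * A.uncay Complex.I S.1 * A.toC P)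
        (goodS1 V) := by
      rw [continuousOn_iff_continuous_restrict] at h3 ⊢
      exact (continuous_const.matrix_mul h3).matrix_mul continuous_const
    have h4 : ContinuousOn (fun S : F.SymU V => ((Complex.I,
        (A.toC P)ᵀ * A.uncay Complex.I S.1 * A.toC P) : ℂ × Matrix J J ℂ)) (goodS1 V) :=
      continuousOn_const.prodMk h2
    have h5 : Set.MapsTo (fun S : F.SymU V => ((Complex.I,
        (A.toC P)ᵀ * A.uncay Complex.I S.1 * A.toC P) : ℂ × Matrix J J ℂ)) (goodS1 V)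
        {p | p.1.im ≠ 0 ∧ p.2ᴴ = p.2} := by
      intro S hS
      exact ⟨by simp, (cmp_realSymm P hS).1⟩
    have h6 : ContinuousOn ((fun p : ℂ × Matrix J J ℂ => cay p.1 p.2) ∘
        (fun S : F.SymU V => ((Complex.I,
        (A.toC P)ᵀ * A.uncay Complex.I S.1 * A.toC P) : ℂ × Matrix J J ℂ))) (goodS1 V) :=
      ContinuousOn.comp A.continuousOn_cay h4 h5
    exact h6
  rw [Topology.IsInducing.subtypeVal.continuousOn_iff]
  refine h1.congr fun S hS => ?_
  exact H167.coe_toSU (cmpM_mem P hS)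

lemma continuousOn_cmpS (P : Matrix V J ℝ) : ContinuousOn (cmpS P) (goodS1 V) :=
  (continuousOn_toSU_cmpM P).congr fun S hS => cmpS_of_mem P hS

lemma measurable_cmpS (P : Matrix V J ℝ) : Measurable (cmpS P) := by
  classical
  exact (continuousOn_toSU_cmpM P).measurable_piecewise continuousOn_const
    isOpen_goodS1.measurableSet

/-! ### Equivariance -/

/-- the extension of an orthogonal matrix -/
def extO (P : Matrix V J ℝ) (O : Matrix J J ℝ) : Matrix V V ℝ := P * O * Pᵀ + (1 - P * Pᵀ)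

variable {P : Matrix V J ℝ} {O : Matrix J J ℝ}

lemma extO_mul (hP : Pᵀ * P = 1) : extO P O * P = P * O := by
  rw [extO, Matrix.add_mul, Matrix.sub_mul, Matrix.mul_assoc (P * O), hP, Matrix.mul_assoc P Pᵀ P,
    hP, Matrix.mul_one, Matrix.mul_one, Matrix.one_mul, sub_self, add_zero]

lemma extO_transpose : (extO P O)ᵀ = extO P Oᵀ := by
  unfold extO
  rw [transpose_add, transpose_sub, transpose_mul, transpose_mul, transpose_mul,
    transpose_transpose, transpose_one, Matrix.mul_assoc]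

lemma extO_orth (hP : Pᵀ * P = 1) (hO : O * Oᵀ = 1) : extO P O * (extO P O)ᵀ = 1 := by
  have h1 : extO P O * extO P Oᵀ = extO P O * (P * Oᵀ * Pᵀ) + extO P O * (1 - P * Pᵀ) := by
    rw [← Matrix.mul_add]
    rfl
  have h2 : extO P O * (P * Oᵀ * Pᵀ) = P * Pᵀ := by
    rw [← Matrix.mul_assoc, ← Matrix.mul_assoc, extO_mul hP, Matrix.mul_assoc P O, hO,
      Matrix.mul_one]
  have h3 : extO P O * (1 - P * Pᵀ) = 1 - P * Pᵀ := by
    rw [Matrix.mul_sub, Matrix.mul_one, ← Matrix.mul_assoc, extO_mul hP]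
    unfold extO
    abel
  rw [extO_transpose, h1, h2, h3]
  abel

lemma extO_transpose_mul (hP : Pᵀ * P = 1) : (extO P O)ᵀ * P = P * Oᵀ := by
  rw [extO_transpose, extO_mul hP]

lemma toC_mul {a b c : Type} [Fintype b] (A₁ : Matrix a b ℝ) (A₂ : Matrix b c ℝ) :
    A.toC (A₁ * A₂) = A.toC A₁ * A.toC A₂ := by
  have := Matrix.map_mul (L := A₁) (M := A₂) (f := algebraMap ℝ ℂ)
  exact this

lemma toC_transpose {a b : Type} (A₁ : Matrix a b ℝ) : A.toC A₁ᵀ = (A.toC A₁)ᵀ := rfl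

lemma toC_one : A.toC (1 : Matrix V V ℝ) = 1 :=
  Matrix.map_one _ Complex.ofReal_zero Complex.ofReal_one

/-- `uncay` is equivariant under unitary matrices `U` -/
lemma uncay_conj {m : ℂ} {U S : Matrix V V ℂ} (hU : U ∈ unitaryGroup V ℂ)
    (hS : IsUnit (1 - S).det) :
    A.uncay m (U * S * Uᴴ) = U * A.uncay m S * Uᴴ := by
  have hUU : Uᴴ * U = 1 := mem_unitaryGroup_iff'.mp hU
  have hUU' : U * Uᴴ = 1 := mem_unitaryGroup_iff.mp hU
  have h1 : m • (1 : Matrix V V ℂ) - conj m • (U * S * Uᴴ)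
      = U * (m • (1 : Matrix V V ℂ) - conj m • S) * Uᴴ := by
    rw [Matrix.mul_sub, Matrix.sub_mul, Matrix.mul_smul, Matrix.mul_one, Matrix.smul_mul, hUU',
      Matrix.mul_smul, Matrix.smul_mul]
  have h2 : (1 : Matrix V V ℂ) - U * S * Uᴴ = U * (1 - S) * Uᴴ := by
    rw [Matrix.mul_sub, Matrix.sub_mul, Matrix.mul_one, hUU']
  have h3 : (U * (1 - S) * Uᴴ)⁻¹ = U * (1 - S)⁻¹ * Uᴴ := by
    apply Matrix.inv_eq_right_inv
    calc U * (1 - S) * Uᴴ * (U * (1 - S)⁻¹ * Uᴴ)
        = U * (1 - S) * (Uᴴ * U) * (1 - S)⁻¹ * Uᴴ := by simp only [Matrix.mul_assoc]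
      _ = U * ((1 - S) * (1 - S)⁻¹) * Uᴴ := by rw [hUU, Matrix.mul_one]; simp only [Matrix.mul_assoc]
      _ = 1 := by rw [Matrix.mul_nonsing_inv _ hS, Matrix.mul_one, hUU']
  unfold A.uncay
  rw [h1, h2, h3]
  calc U * (m • (1 : Matrix V V ℂ) - conj m • S) * Uᴴ * (U * (1 - S)⁻¹ * Uᴴ)
      = U * (m • (1 : Matrix V V ℂ) - conj m • S) * (Uᴴ * U) * (1 - S)⁻¹ * Uᴴ := by
        simp only [Matrix.mul_assoc]
    _ = _ := by rw [hUU, Matrix.mul_one]; simp only [Matrix.mul_assoc]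

lemma extO_mem (hP : Pᵀ * P = 1) (hO : O ∈ orthogonalGroup J ℝ) :
    extO P O ∈ orthogonalGroup V ℝ := by
  rw [mem_orthogonalGroup_iff] at hO ⊢
  exact extO_orth hP hO

/-- `1 - U S Uᴴ` is invertible -/
lemma isUnit_conj {U S : Matrix V V ℂ} (hU : U ∈ unitaryGroup V ℂ)
    (hS : IsUnit (1 - S).det) : IsUnit (1 - U * S * Uᴴ).det := by
  have hUU' : U * Uᴴ = 1 := mem_unitaryGroup_iff.mp hU
  have h2 : (1 : Matrix V V ℂ) - U * S * Uᴴ = U * (1 - S) * Uᴴ := by
    rw [Matrix.mul_sub, Matrix.sub_mul, Matrix.mul_one, hUU']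
  rw [h2, det_mul, det_mul, mul_comm U.det, mul_assoc, ← det_mul, hUU', det_one, mul_one]
  exact hS

theorem cmpM_equiv (hP : Pᵀ * P = 1) (hO : O ∈ orthogonalGroup J ℝ) {S : F.SymU V}
    (hS : S ∈ goodS1 V) :
    cmpM P (A.toC (extO P O) * S.1 * (A.toC (extO P O))ᵀ)
      = A.toC O * cmpM P S.1 * (A.toC O)ᵀ := by
  have hE := A.toC_mem_unitary (extO_mem hP hO)
  have h1 : (A.toC (extO P O))ᴴ = (A.toC (extO P O))ᵀ := A.toC_conjTranspose _
  have h2 : (A.toC (extO P O))ᵀ * A.toC P = A.toC P * (A.toC O)ᵀ := by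
    rw [← toC_transpose, ← toC_mul, extO_transpose_mul hP, toC_mul, toC_transpose]
  have h3 : (A.toC P)ᵀ * A.toC (extO P O) = A.toC O * (A.toC P)ᵀ := by
    have := congrArg Matrix.transpose h2
    rwa [transpose_mul, transpose_mul, transpose_transpose, transpose_transpose] at this
  have h4 := A.cay_orth (m := Complex.I) (cmp_realSymm P hS).1 (by simp) hO
  have h5 : O.map (fun x : ℝ => (x : ℂ)) = A.toC O := rfl
  rw [h5] at h4
  unfold cmpM
  rw [← h4, ← h1, uncay_conj hE hS, h1]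
  congr 1
  calc (A.toC P)ᵀ * (A.toC (extO P O) * A.uncay Complex.I S.1 * (A.toC (extO P O))ᵀ) * A.toC P
      = ((A.toC P)ᵀ * A.toC (extO P O)) * A.uncay Complex.I S.1
          * ((A.toC (extO P O))ᵀ * A.toC P) := by simp only [Matrix.mul_assoc]
    _ = _ := by rw [h2, h3]; simp only [Matrix.mul_assoc]

/-- real orthogonal matrices as elements of the unitary group -/
def orthU (O : Matrix V V ℝ) (hO : O ∈ orthogonalGroup V ℝ) : unitaryGroup V ℂ :=
  ⟨A.toC O, A.toC_mem_unitary hO⟩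

lemma isReal_orthU (O : Matrix V V ℝ) (hO : O ∈ orthogonalGroup V ℝ) : F.IsReal (orthU O hO) := by
  intro i j
  change (A.toC O i j).im = 0
  rw [A.toC_apply]
  simp

lemma exists_orthU {U : unitaryGroup V ℂ} (hU : F.IsReal U) :
    ∃ (O : Matrix V V ℝ) (hO : O ∈ orthogonalGroup V ℝ), U = orthU O hO := by
  have h1 : A.toC (U.1.map Complex.re) = U.1 := by
    ext i j
    rw [A.toC_apply, Matrix.map_apply]
    apply Complex.ext
    · simp
    · simp [hU i j]
  have h2 : U.1.map Complex.re ∈ orthogonalGroup V ℝ := by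
    rw [mem_orthogonalGroup_iff]
    have h3 := mem_unitaryGroup_iff.mp U.2
    rw [star_eq_conjTranspose, ← h1, A.toC_conjTranspose, ← toC_transpose, ← toC_mul] at h3
    have h4 : A.toC (U.1.map Complex.re * (U.1.map Complex.re)ᵀ) = A.toC 1 := by
      rw [h3, toC_one]
    have h5 : Function.Injective (fun M : Matrix V V ℝ => A.toC M) := by
      intro M N h
      ext i j
      have := congrFun (congrFun h i) j
      exact Complex.ofReal_injective this
    exact h5 h4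
  exact ⟨_, h2, Subtype.ext h1.symm⟩

lemma cmpS_smul (hP : Pᵀ * P = 1) (hO : O ∈ orthogonalGroup J ℝ) {S : F.SymU V}
    (hS : S ∈ goodS1 V) :
    cmpS P (orthU (extO P O) (extO_mem hP hO) • S) = orthU O hO • cmpS P S := by
  have hE := A.toC_mem_unitary (extO_mem hP hO)
  have h1 : (A.toC (extO P O))ᴴ = (A.toC (extO P O))ᵀ := A.toC_conjTranspose _
  have hS' : orthU (extO P O) (extO_mem hP hO) • S ∈ goodS1 V := by
    have := isUnit_conj hE hS
    rw [h1] at this
    exact this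
  rw [cmpS_of_mem P hS', cmpS_of_mem P hS]
  apply Subtype.ext
  rw [H167.coe_toSU (cmpM_mem P hS'), F.coe_smul, F.coe_smul, H167.coe_toSU (cmpM_mem P hS)]
  exact cmpM_equiv hP hO hS

/-- **Law of a compression.** -/
theorem compression_law {ι : Type} {L : Filter ι} [L.NeBot] {Ω : ι → Type*}
    {s : ∀ i, Finset (Ω i)} (hs : ∀ᶠ i in L, (s i).Nonempty)
    {R : ∀ i, Ω i → Matrix V V ℂ} (hR : ∀ᶠ i in L, ∀ ω ∈ s i, A.RealSymm (R i ω))
    {m : ι → ℂ} (hm : ∀ᶠ i in L, (m i).im ≠ 0) {Λ : Measure (F.SymU V)} [IsProbabilityMeasure Λ]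
    (hΛ : Lim.IsLimitLaw L s (fun i ω => H167.toSU (cay (m i) (R i ω))) Λ)
    (hΛ1 : Λ (goodS1 V)ᶜ = 0) (hP : Pᵀ * P = 1) {H : Measure (F.SymU J)} [IsProbabilityMeasure H]
    (hH : Lim.IsLimitLaw L s
      (fun i ω => H167.toSU (cay (m i) ((A.toC P)ᵀ * R i ω * A.toC P))) H) :
    H = Λ.map (cmpS P) := by
  refine Lim.IsLimitLaw.transfer (bad := fun _ _ => False) hs hΛ hH (measurable_cmpS P)
    isOpen_goodS1 (continuousOn_cmpS P) hΛ1 ?_ ?_
  · simp only [prob, avg, if_false, Finset.sum_const_zero, zero_div]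
    exact tendsto_const_nhds
  · filter_upwards [hR, hm] with i hi hmi ω hω _ hmem
    rw [cmpS_of_mem P hmem, H167.coe_toSU (H167.cay_mem_symU hmi (hi ω hω)),
      cay_compress' hP hmi (hi ω hω).1]

theorem OInv_map_cmpS {Λ : Measure (F.SymU V)} (hΛ1 : Λ (goodS1 V)ᶜ = 0) (hP : Pᵀ * P = 1)
    (hΛO : F.OInv Λ) : F.OInv (Λ.map (cmpS P)) := by
  intro U hU
  obtain ⟨O, hO, rfl⟩ := exists_orthU hU
  have h1 := hΛO _ (isReal_orthU _ (extO_mem hP hO))
  unfold F.InvBy at h1 ⊢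
  rw [Measure.map_map (F.measurable_smul _) (measurable_cmpS P)]
  have h2 : Λ.map ((fun S => orthU O hO • S) ∘ cmpS P)
      = Λ.map (cmpS P ∘ (fun S => orthU (extO P O) (extO_mem hP hO) • S)) := by
    apply Measure.map_congr
    have h3 : ∀ᵐ S ∂Λ, S ∈ goodS1 V := by
      rw [ae_iff]
      exact hΛ1
    filter_upwards [h3] with S hS
    exact (cmpS_smul hP hO hS).symm
  rw [h2, ← Measure.map_map (measurable_cmpS P) (F.measurable_smul _), h1]

end

end Vale.Agent.P156.H917
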