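import Vale.Agent.P156.MathlibUsed

/-!
Insertion of a vertex and insertion of an edge: resolvent formulas for matrices over a field.
-/

open Matrix

namespace Vale.Agent.P156.H917

variable {V : Type*} [Fintype V] [DecidableEq V] {F : Type*} [Field F]

/-- `M` with row and column `a` replaced by those of the identity. -/
def killRC (M : Matrix V V F) (a : V) : Matrix V V F :=
  fun x y => if x = a ∨ y = a then (if x = y then 1 else 0) else M x y

/-- row `a` off the diagonal -/
def offRow (M : Matrix V V F) (a : V) : V → F := fun y => if y = a then 0 else M a y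

/-- column `a` off the diagonal -/
def offCol (M : Matrix V V F) (a : V) : V → F := fun x => if x = a then 0 else M x a

lemma killRC_mulVec (M : Matrix V V F) (a : V) (v : V → F) (hv : v a = 0) (x : V) :
    (killRC M a).mulVec v x = if x = a then 0 else (M.mulVec v) x := by
  simp only [Matrix.mulVec, dotProduct]
  by_cases hx : x = a
  · subst hx
    simp [killRC, hv]
  · simp only [hx, if_false]
    apply Finset.sum_congr rfl
    intro y _
    by_cases hy : y = a
    · subst hy; simp [hv]
    · simp [killRC, hx, hy]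

variable {M : Matrix V V F} {a : V}

/-- column `a` of the inverse -/
lemma inv_col (h : IsUnit M.det) (h0 : IsUnit (killRC M a).det) {x : V} (hx : x ≠ a) :
    M⁻¹ x a = -((killRC M a)⁻¹.mulVec (offCol M a) x) * M⁻¹ a a := by
  set R := (killRC M a)⁻¹ with hR
  have hMM : M * M⁻¹ = 1 := Matrix.mul_nonsing_inv _ h
  let u : V → F := fun y => if y = a then 0 else M⁻¹ y a
  have hu : (killRC M a).mulVec u = -(M⁻¹ a a) • offCol M a := by
    funext y
    rw [killRC_mulVec _ _ _ (by simp [u])]
    by_cases hy : y = a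
    · subst hy; simp [offCol]
    · have h1 : (M * M⁻¹) y a = 0 := by rw [hMM]; simp [hy]
      rw [Matrix.mul_apply, ← Finset.add_sum_erase _ _ (Finset.mem_univ a)] at h1
      simp only [hy, if_false, Pi.smul_apply, offCol, smul_eq_mul]
      have h2 : M.mulVec u y = ∑ z ∈ Finset.univ.erase a, M y z * M⁻¹ z a := by
        simp only [Matrix.mulVec, dotProduct]
        rw [← Finset.add_sum_erase _ _ (Finset.mem_univ a)]
        simp only [u, if_true, mul_zero, zero_add]
        apply Finset.sum_congr rfl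
        intro z hz
        rw [if_neg (Finset.ne_of_mem_erase hz)]
      rw [h2]
      linear_combination h1
  have h3 : u = -(M⁻¹ a a) • R.mulVec (offCol M a) := by
    have : R.mulVec ((killRC M a).mulVec u) = u := by
      rw [Matrix.mulVec_mulVec, hR, Matrix.nonsing_inv_mul _ h0, Matrix.one_mulVec]
    rw [← this, hu, Matrix.mulVec_smul]
  have h4 := congrFun h3 x
  simp only [u, hx, if_false, Pi.smul_apply, smul_eq_mul] at h4
  rw [h4]; ring

/-- the diagonal entry -/
lemma inv_diag (h : IsUnit M.det) (h0 : IsUnit (killRC M a).det) :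
    M⁻¹ a a * (M a a - offRow M a ⬝ᵥ ((killRC M a)⁻¹.mulVec (offCol M a))) = 1 := by
  set R := (killRC M a)⁻¹ with hR
  have hMM : M * M⁻¹ = 1 := Matrix.mul_nonsing_inv _ h
  have h1 : (M * M⁻¹) a a = 1 := by rw [hMM]; simp
  rw [Matrix.mul_apply, ← Finset.add_sum_erase _ _ (Finset.mem_univ a)] at h1
  have h2 : ∑ z ∈ Finset.univ.erase a, M a z * M⁻¹ z a
      = -(M⁻¹ a a) * (offRow M a ⬝ᵥ (R.mulVec (offCol M a))) := by
    rw [dotProduct, ← Finset.add_sum_erase _ _ (Finset.mem_univ a)]
    simp only [offRow, if_true, zero_mul, zero_add]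
    rw [Finset.mul_sum]
    apply Finset.sum_congr rfl
    intro z hz
    have hz' := Finset.ne_of_mem_erase hz
    rw [if_neg hz', inv_col h h0 hz']
    ring
  rw [h2] at h1
  linear_combination h1

lemma inv_diag_eq (h : IsUnit M.det) (h0 : IsUnit (killRC M a).det) :
    M⁻¹ a a = (M a a - offRow M a ⬝ᵥ ((killRC M a)⁻¹.mulVec (offCol M a)))⁻¹ :=
  eq_inv_of_mul_eq_one_left (inv_diag h h0)

/-- column `y` of the inverse, first form -/
lemma inv_entry' (h : IsUnit M.det) (h0 : IsUnit (killRC M a).det) {x y : V} (hx : x ≠ a)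
    (hy : y ≠ a) :
    M⁻¹ x y = (killRC M a)⁻¹ x y - ((killRC M a)⁻¹.mulVec (offCol M a) x) * M⁻¹ a y := by
  set R := (killRC M a)⁻¹ with hR
  have hMM : M * M⁻¹ = 1 := Matrix.mul_nonsing_inv _ h
  let u : V → F := fun z => if z = a then 0 else M⁻¹ z y
  have hu : (killRC M a).mulVec u = Pi.single y 1 - (M⁻¹ a y) • offCol M a := by
    funext w
    rw [killRC_mulVec _ _ _ (by simp [u])]
    by_cases hw : w = a
    · subst hw
      simp [offCol, Ne.symm hy]
    · have h1 : (M * M⁻¹) w y = if w = y then 1 else 0 := by rw [hMM, Matrix.one_apply]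
      rw [Matrix.mul_apply, ← Finset.add_sum_erase _ _ (Finset.mem_univ a)] at h1
      simp only [hw, if_false, Pi.sub_apply, Pi.smul_apply, offCol, smul_eq_mul, Pi.single_apply]
      have h2 : M.mulVec u w = ∑ z ∈ Finset.univ.erase a, M w z * M⁻¹ z y := by
        simp only [Matrix.mulVec, dotProduct]
        rw [← Finset.add_sum_erase _ _ (Finset.mem_univ a)]
        simp only [u, if_true, mul_zero, zero_add]
        apply Finset.sum_congr rfl
        intro z hz
        rw [if_neg (Finset.ne_of_mem_erase hz)]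
      rw [h2]
      linear_combination h1
  have h3 : u = R.mulVec (Pi.single y 1) - (M⁻¹ a y) • R.mulVec (offCol M a) := by
    have : R.mulVec ((killRC M a).mulVec u) = u := by
      rw [Matrix.mulVec_mulVec, hR, Matrix.nonsing_inv_mul _ h0, Matrix.one_mulVec]
    rw [← this, hu, Matrix.mulVec_sub, Matrix.mulVec_smul]
  have h4 := congrFun h3 x
  simp only [u, hx, if_false, Pi.sub_apply, Pi.smul_apply, smul_eq_mul,
    Matrix.mulVec_single_one, Matrix.col_apply] at h4
  rw [h4]; ring

/-- row `a` of the inverse -/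
lemma inv_row (h : IsUnit M.det) (h0 : IsUnit (killRC M a).det) {y : V} (hy : y ≠ a) :
    M⁻¹ a y = -(M⁻¹ a a) * ((offRow M a) ᵥ* (killRC M a)⁻¹) y := by
  set R := (killRC M a)⁻¹ with hR
  have hMM : M * M⁻¹ = 1 := Matrix.mul_nonsing_inv _ h
  have h1 : (M * M⁻¹) a y = 0 := by rw [hMM]; simp [Ne.symm hy]
  rw [Matrix.mul_apply, ← Finset.add_sum_erase _ _ (Finset.mem_univ a)] at h1
  have h2 : ∑ z ∈ Finset.univ.erase a, M a z * M⁻¹ z y
      = ((offRow M a) ᵥ* R) y - (offRow M a ⬝ᵥ (R.mulVec (offCol M a))) * M⁻¹ a y := by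
    rw [Matrix.vecMul, dotProduct, dotProduct, ← Finset.add_sum_erase _ _ (Finset.mem_univ a),
      ← Finset.add_sum_erase _ _ (Finset.mem_univ a)]
    simp only [offRow, if_true, zero_mul, zero_add]
    rw [Finset.sum_mul, ← Finset.sum_sub_distrib]
    apply Finset.sum_congr rfl
    intro z hz
    have hz' := Finset.ne_of_mem_erase hz
    rw [if_neg hz', inv_entry' h h0 hz' hy]
    ring
  rw [h2] at h1
  have h3 := inv_diag h h0
  rw [← hR] at h3
  have h4 : M⁻¹ a y * (M a a - offRow M a ⬝ᵥ (R.mulVec (offCol M a)))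
      = -((offRow M a) ᵥ* R) y := by linear_combination h1
  calc M⁻¹ a y = M⁻¹ a y * (M a a - offRow M a ⬝ᵥ (R.mulVec (offCol M a))) * M⁻¹ a a := by
        rw [mul_assoc, mul_comm (M a a - _) _, h3, mul_one]
    _ = _ := by rw [h4]; ring

/-- the remaining entries -/
lemma inv_entry (h : IsUnit M.det) (h0 : IsUnit (killRC M a).det) {x y : V} (hx : x ≠ a)
    (hy : y ≠ a) :
    M⁻¹ x y = (killRC M a)⁻¹ x y + M⁻¹ a a * ((killRC M a)⁻¹.mulVec (offCol M a) x)
      * ((offRow M a) ᵥ* (killRC M a)⁻¹) y := by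
  rw [inv_entry' h h0 hx hy, inv_row h h0 hy]
  ring

/-! ### Insertion of an edge -/

/-- Resolvent identity for the insertion of an edge. -/
lemma edge_resolvent {M N : Matrix V V F} {a b : V}
    (hMN : M = N + Matrix.single a b 1 + Matrix.single b a 1)
    (hM : IsUnit M.det) (hN : IsUnit N.det) (x y : V) :
    M⁻¹ x y = N⁻¹ x y - (N⁻¹ x a * M⁻¹ b y + N⁻¹ x b * M⁻¹ a y) := by
  have h : M⁻¹ = N⁻¹ - N⁻¹ * (Matrix.single a b 1 + Matrix.single b a 1) * M⁻¹ := by
    have h1 : Matrix.single a b 1 + Matrix.single b a 1 = M - N := by rw [hMN]; abel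
    rw [h1, Matrix.mul_sub, Matrix.sub_mul, Matrix.nonsing_inv_mul _ hN, Matrix.one_mul,
      Matrix.mul_assoc, Matrix.mul_nonsing_inv _ hM, Matrix.mul_one]
    abel
  have h2 := congrFun (congrFun h x) y
  rw [h2, Matrix.sub_apply]
  congr 1
  rw [Matrix.mul_add, Matrix.add_mul, Matrix.add_apply, Matrix.mul_apply, Matrix.mul_apply]
  congr 1
  · rw [Finset.sum_eq_single b]
    · rw [Matrix.mul_single_apply_same]; simp
    · intro z _ hz
      rw [Matrix.mul_single_apply_of_ne _ _ _ _ _ hz, zero_mul]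
    · simp
  · rw [Finset.sum_eq_single a]
    · rw [Matrix.mul_single_apply_same]; simp
    · intro z _ hz
      rw [Matrix.mul_single_apply_of_ne _ _ _ _ _ hz, zero_mul]
    · simp

end Vale.Agent.P156.H917
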