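import Vale.Agent.P156.R2.Defs

/-!
If `E` is transcendental then `B - E` is invertible for every integer matrix `B`, also after
removing rows and columns.
-/

open Matrix Polynomial

namespace Vale.Agent.P156.H917

variable {V : Type*} [Fintype V] [DecidableEq V]

/-- `E - B` is invertible over `ℂ`. -/
lemma det_sub_ne_zero {E : ℝ} (hE : Transcendental ℤ E) (B : Matrix V V ℤ) :
    (Matrix.scalar V (E : ℂ) - B.map (Int.castRingHom ℂ)).det ≠ 0 := by
  intro h
  apply hE
  refine ⟨B.charpoly, (Matrix.charpoly_monic B).ne_zero, ?_⟩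
  have h1 : (B.charpoly.map (Int.castRingHom ℂ)).eval (E : ℂ) = 0 := by
    rw [← Matrix.charpoly_map, Matrix.eval_charpoly]
    exact h
  have h2 : (B.charpoly.map (Int.castRingHom ℝ)).eval E = 0 := by
    have h3 : ((B.charpoly.map (Int.castRingHom ℝ)).map Complex.ofRealHom).eval (E : ℂ) = 0 := by
      rw [Polynomial.map_map]
      have : Complex.ofRealHom.comp (Int.castRingHom ℝ) = Int.castRingHom ℂ := by
        ext; simp
      rw [this]; exact h1
    have h4 := Polynomial.eval_map_apply (p := B.charpoly.map (Int.castRingHom ℝ))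
      (f := Complex.ofRealHom) E
    rw [Complex.ofRealHom_eq_coe] at h4
    rw [h3] at h4
    have h5 : ((eval E (Polynomial.map (Int.castRingHom ℝ) B.charpoly) : ℝ) : ℂ) = 0 := h4.symm
    exact_mod_cast h5
  rw [Polynomial.aeval_def, Polynomial.eval₂_eq_eval_map]
  exact h2

/-- For transcendental `E` every cut matrix of an integer matrix is invertible. -/
theorem cutMat_isUnit {E : ℝ} (hE : Transcendental ℤ E) (B : Matrix V V ℤ) (A : Matrix V V ℝ)
    (hA : ∀ x y, A x y = (B x y : ℝ)) (D : Finset V) :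
    IsUnit (cutMat A D (E : ℂ)).det := by
  rw [isUnit_iff_ne_zero]
  intro h
  obtain ⟨v, hv, hMv⟩ := Matrix.exists_mulVec_eq_zero_iff.mpr h
  obtain ⟨B', hB'⟩ : ∃ B' : Matrix V V ℤ, ∀ x y, B' x y = if x ∈ D ∨ y ∈ D then 0 else B x y :=
    ⟨fun x y => if x ∈ D ∨ y ∈ D then 0 else B x y, fun _ _ => rfl⟩
  have hD : ∀ x ∈ D, v x = 0 := by
    intro x hx
    have := congrFun hMv x
    simp only [Matrix.mulVec, dotProduct, cutMat, hx, true_or, if_true, Pi.zero_apply] at this
    simpa using this
  apply det_sub_ne_zero hE B'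
  apply Matrix.exists_mulVec_eq_zero_iff.mp
  refine ⟨v, hv, ?_⟩
  funext x
  rw [Matrix.sub_mulVec]
  simp only [Pi.sub_apply, Pi.zero_apply]
  by_cases hx : x ∈ D
  · have h1 : (B'.map (Int.castRingHom ℂ)).mulVec v x = 0 := by
      simp [Matrix.mulVec, dotProduct, Matrix.map_apply, hB', hx]
    have h2 : (Matrix.scalar V (E : ℂ)).mulVec v x = 0 := by
      simp [Matrix.scalar_apply, Matrix.mulVec_diagonal, hD x hx]
    rw [h1, h2, sub_zero]
  · have := congrFun hMv x
    simp only [Matrix.mulVec, dotProduct, cutMat, hx, false_or, Pi.zero_apply] at this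
    have h3 : ∀ y, (if y ∈ D then if x = y then (1 : ℂ) else 0
        else (A x y : ℂ) - if x = y then (E : ℂ) else 0) * v y
        = (B'.map (Int.castRingHom ℂ)) x y * v y - (if x = y then (E : ℂ) else 0) * v y := by
      intro y
      by_cases hy : y ∈ D
      · simp [hD y hy]
      · rw [Matrix.map_apply, hB']
        simp only [hy, if_false, hx, or_self, hA]
        simp [sub_mul]
    rw [Finset.sum_congr rfl (fun y _ => h3 y), Finset.sum_sub_distrib] at this
    have h4 : (Matrix.scalar V (E : ℂ)).mulVec v x = ∑ y, (if x = y then (E : ℂ) else 0) * v y := by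
      simp [Matrix.scalar_apply, Matrix.mulVec_diagonal]
    rw [h4]
    simp only [Matrix.mulVec, dotProduct]
    rw [← neg_eq_zero, neg_sub]
    exact this

/-- The adjacency matrix of a graph on `Fin n` -/
theorem cutMat_adj_isUnit {E : ℝ} (hE : Transcendental ℤ E) {n : ℕ} (G : SimpleGraph (Fin n))
    (D : Finset (Fin n)) : IsUnit (cutMat (adj G) D (E : ℂ)).det := by
  classical
  refine cutMat_isUnit hE (G.adjMatrix ℤ) _ ?_ D
  intro x y
  unfold adj
  simp only [SimpleGraph.adjMatrix_apply]
  split_ifs <;> simp_all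

end Vale.Agent.P156.H917
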