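import Vale.Agent.P156.R2.Defs
import Vale.Agent.P156.H917.Ins
import Vale.Agent.P156.H917.Trans
import Vale.Agent.P156.B.Star

/-!
F1, graph side: `K` stars deleted and one edge `{a, b}` removed.
-/

open Matrix

namespace Vale.Agent.P156.H917

noncomputable section

variable {n q K : ℕ}

/-- the sample space: graph and positions of `K + 1` stars, degree `q + 1` -/
abbrev Om (n q K : ℕ) : Type := SimpleGraph (Fin n) × StarPos n (q + 1) (K + 1)

/-- the last centre `a` -/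
def ea (ω : Om n q K) : Fin n := ω.2.1 (Fin.last K)

/-- its last leaf `b` -/
def eb (ω : Om n q K) : Fin n := ω.2.2 (Fin.last K) (Fin.last q)

/-- forget the last star -/
def front (ω : Om n q K) : SimpleGraph (Fin n) × StarPos n (q + 1) K :=
  (ω.1, fun j => ω.2.1 j.castSucc, fun j => ω.2.2 j.castSucc)

/-- the adjacency matrix with the edge `{a, b}` removed -/
def adjE {n : ℕ} (G : SimpleGraph (Fin n)) (a b : Fin n) : Matrix (Fin n) (Fin n) ℝ :=
  fun x y => if (x = a ∧ y = b) ∨ (x = b ∧ y = a) then 0 else adj G x y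

/-- leads of the edge system: leaves of the first `K` stars, and `a, b` -/
def elead {n d K : ℕ} (ω : SimpleGraph (Fin n) × StarPos n d K) (a b : Fin n) :
    (Fin K × Fin d) ⊕ Fin 2 → Fin n :=
  Sum.elim (lead ω) ![a, b]

/-- the resolvent of the edge system -/
def edgeMat' {n d K : ℕ} (ω : SimpleGraph (Fin n) × StarPos n d K) (a b : Fin n) (z : ℂ) :
    Matrix ((Fin K × Fin d) ⊕ Fin 2) ((Fin K × Fin d) ⊕ Fin 2) ℂ :=
  (resD (adjE ω.1 a b) (centres ω) z).submatrix (elead ω a b) (elead ω a b)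

def edgeMat (ω : Om n q K) (z : ℂ) :
    Matrix ((Fin K × Fin (q + 1)) ⊕ Fin 2) ((Fin K × Fin (q + 1)) ⊕ Fin 2) ℂ :=
  edgeMat' (front ω) (ea ω) (eb ω) z

/-- exchange of `a` and `b` -/
def swapE (α : Type*) : α ⊕ Fin 2 ≃ α ⊕ Fin 2 := Equiv.sumCongr (Equiv.refl α) (Equiv.swap 0 1)

lemma adjE_comm {n : ℕ} (G : SimpleGraph (Fin n)) (a b : Fin n) : adjE G a b = adjE G b a := by
  ext x y
  unfold adjE
  congr 1
  apply propext
  tauto

lemma elead_swap {n d K : ℕ} (ω : SimpleGraph (Fin n) × StarPos n d K) (a b : Fin n) :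
    elead ω a b ∘ swapE _ = elead ω b a := by
  funext x
  rcases x with x | x
  · rfl
  · fin_cases x <;> simp [elead, swapE]

lemma edgeMat'_swap {n d K : ℕ} (ω : SimpleGraph (Fin n) × StarPos n d K) (a b : Fin n) (z : ℂ) :
    (edgeMat' ω a b z).submatrix (swapE _) (swapE _) = edgeMat' ω b a z := by
  unfold edgeMat'
  rw [Matrix.submatrix_submatrix, elead_swap, adjE_comm]

/-! ### Exact swap invariance -/

lemma reg_of_mem {n d : ℕ} {G : SimpleGraph (Fin n)} (hG : G ∈ regularGraphs n d) :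
    B.Reg d G := by
  classical
  intro v
  have h := (Finset.mem_filter.mp hG).2 v
  rw [Set.ncard_eq_toFinset_card', Set.toFinset_card, SimpleGraph.card_neighborSet_eq_degree]
  convert h

lemma isStar_iff {n d : ℕ} {G : SimpleGraph (Fin n)} (hG : G ∈ regularGraphs n d)
    (v : Fin n) (l : Fin d → Fin n) :
    IsStar G v l ↔ (v, l) ∈ B.stars d G := by
  rw [B.mem_stars]
  constructor
  · rintro ⟨h1, h2⟩
    exact ⟨h1, fun k => (h2 _).mpr ⟨k, rfl⟩⟩
  · rintro ⟨h1, h2⟩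
    refine ⟨h1, fun w => ?_⟩
    have := B.range_eq_neighborSet (reg_of_mem hG) h1 h2
    have h3 : w ∈ Set.range l ↔ w ∈ G.neighborSet v := by rw [this]
    exact h3.symm

lemma mem_WW {n d K : ℕ} {ω : SimpleGraph (Fin n) × StarPos n d K} :
    ω ∈ WW n d K ↔ ω.1 ∈ regularGraphs n d ∧ ∀ j, IsStar ω.1 (ω.2.1 j) (ω.2.2 j) := by
  classical
  simp [WW]

/-- forget the last star -/
def front' {n d K : ℕ} (ω : SimpleGraph (Fin n) × StarPos n d (K + 1)) :
    SimpleGraph (Fin n) × StarPos n d K :=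
  (ω.1, fun j => ω.2.1 j.castSucc, fun j => ω.2.2 j.castSucc)

lemma sum_WW_succ {n d K : ℕ}
    (Φ : SimpleGraph (Fin n) × StarPos n d K → Fin n × (Fin d → Fin n) → ℝ) :
    ∑ ω ∈ WW n d (K + 1), Φ (front' ω) (ω.2.1 (Fin.last K), ω.2.2 (Fin.last K))
      = ∑ ω ∈ WW n d K, ∑ t ∈ B.stars d ω.1, Φ ω t := by
  classical
  rw [Finset.sum_sigma']
  refine Finset.sum_bij' (fun ω _ => ⟨front' ω, (ω.2.1 (Fin.last K), ω.2.2 (Fin.last K))⟩)
    (fun p _ => (p.1.1, (Fin.snoc p.1.2.1 p.2.1, Fin.snoc p.1.2.2 p.2.2))) ?_ ?_ ?_ ?_ ?_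
  · intro ω hω
    rw [mem_WW] at hω
    rw [Finset.mem_sigma]
    exact ⟨mem_WW.mpr ⟨hω.1, fun j => hω.2 _⟩, (isStar_iff hω.1 _ _).mp (hω.2 _)⟩
  · intro p hp
    rw [Finset.mem_sigma, mem_WW] at hp
    rw [mem_WW]
    refine ⟨hp.1.1, fun j => ?_⟩
    refine Fin.lastCases ?_ (fun j => ?_) j
    · simp only [Fin.snoc_last]
      exact (isStar_iff hp.1.1 _ _).mpr hp.2
    · simp only [Fin.snoc_castSucc]
      exact hp.1.2 j
  · intro ω hω
    ext1
    · rfl
    · ext1
      · funext j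
        refine Fin.lastCases ?_ (fun j => ?_) j <;> simp [front']
      · funext j
        refine Fin.lastCases ?_ (fun j => ?_) j <;> simp [front']
  · intro p hp
    obtain ⟨ω, t⟩ := p
    simp [front']
  · intro ω hω
    rfl

/-- restriction to the first `K` stars -/
lemma sum_WW_front {n d K : ℕ} (Φ : SimpleGraph (Fin n) × StarPos n d K → ℝ) :
    ∑ ω ∈ WW n d (K + 1), Φ (front' ω) = (d.factorial * n : ℝ) * ∑ ω ∈ WW n d K, Φ ω := by
  rw [sum_WW_succ (fun ω _ => Φ ω), Finset.mul_sum]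
  refine Finset.sum_congr rfl fun ω hω => ?_
  rw [Finset.sum_const, nsmul_eq_mul, B.card_stars (reg_of_mem (mem_WW.mp hω).1)]
  simp

/-- reversal of the last directed edge -/
lemma sum_WW_swap {n d K : ℕ} (k : Fin d)
    (Φ : SimpleGraph (Fin n) × StarPos n d K → Fin n → Fin n → ℝ) :
    ∑ ω ∈ WW n d (K + 1), Φ (front' ω) (ω.2.1 (Fin.last K)) (ω.2.2 (Fin.last K) k)
      = ∑ ω ∈ WW n d (K + 1), Φ (front' ω) (ω.2.2 (Fin.last K) k) (ω.2.1 (Fin.last K)) := by
  rw [sum_WW_succ (fun ω t => Φ ω t.1 (t.2 k)), sum_WW_succ (fun ω t => Φ ω (t.2 k) t.1)]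
  refine Finset.sum_congr rfl fun ω hω => ?_
  have hG := reg_of_mem (mem_WW.mp hω).1
  have hd : (d : ℝ) ≠ 0 := by
    have := k.pos
    positivity
  apply mul_left_cancel₀ hd
  rw [B.sum_stars_edge hG k (Φ ω), B.sum_stars_edge' hG k (Φ ω)]

/-- **(E1)** exact invariance of the law of the edge resolvent under the exchange of the two ends
of the edge. -/
theorem avg_edge_swap (z : ℂ)
    (Φ : SimpleGraph (Fin n) × StarPos n (q + 1) K →
      Matrix ((Fin K × Fin (q + 1)) ⊕ Fin 2) ((Fin K × Fin (q + 1)) ⊕ Fin 2) ℂ → ℝ) :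
    avg (WW n (q + 1) (K + 1)) (fun ω => Φ (front ω) (edgeMat ω z))
      = avg (WW n (q + 1) (K + 1))
        (fun ω => Φ (front ω) ((edgeMat ω z).submatrix (swapE _) (swapE _))) := by
  unfold avg
  congr 1
  have := sum_WW_swap (n := n) (K := K) (Fin.last q)
    (fun ω a b => Φ ω (edgeMat' ω a b z))
  refine this.trans ?_
  refine Finset.sum_congr rfl fun ω _ => ?_
  have h2 : (edgeMat ω z).submatrix (swapE _) (swapE _)
      = edgeMat' (front ω) (eb ω) (ea ω) z := edgeMat'_swap _ _ _ _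
  change _ = Φ (front ω) ((edgeMat ω z).submatrix (swapE _) (swapE _))
  rw [h2]
  rfl

end

end Vale.Agent.P156.H917
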