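import Vale.Agent.P156.H917.Edge

/-!
(E2): the edge resolvent in terms of the lead matrix of `K + 1` stars.
-/

open Matrix

namespace Vale.Agent.P156.H917

noncomputable section

variable {n q K : ℕ}

lemma mem_ZZs {n d K : ℕ} {ω : SimpleGraph (Fin n) × StarPos n d K} :
    ω ∈ ZZs n d K ↔ ω ∈ WW n d K ∧ Function.Injective ω.2.1 ∧
      Function.Injective (fun p : Fin K × Fin d => ω.2.2 p.1 p.2) ∧
      ∀ j k i, ω.2.2 j k ≠ ω.2.1 i := by
  classical
  simp [ZZs]

lemma mem_centres {n d K : ℕ} {ω : SimpleGraph (Fin n) × StarPos n d K} {x : Fin n} :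
    x ∈ centres ω ↔ ∃ j, ω.2.1 j = x := by
  classical
  simp [centres]

lemma mem_centres_succ {ω : Om n q K} {x : Fin n} :
    x ∈ centres ω ↔ x ∈ centres (front ω) ∨ x = ea ω := by
  rw [mem_centres, mem_centres]
  constructor
  · rintro ⟨j, rfl⟩
    refine Fin.lastCases ?_ (fun j => ?_) j
    · right; rfl
    · left; exact ⟨j, rfl⟩
  · rintro (⟨j, rfl⟩ | rfl)
    · exact ⟨j.castSucc, rfl⟩
    · exact ⟨Fin.last K, rfl⟩

lemma ea_notMem {ω : Om n q K} (hω : ω ∈ ZZs n (q + 1) (K + 1)) : ea ω ∉ centres (front ω) := by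
  rw [mem_centres]
  rintro ⟨j, hj⟩
  have := (mem_ZZs.mp hω).2.1 hj
  exact (Fin.castSucc_lt_last j).ne this

lemma leaf_notMem {ω : Om n q K} (hω : ω ∈ ZZs n (q + 1) (K + 1)) (j : Fin (K + 1))
    (k : Fin (q + 1)) : ω.2.2 j k ∉ centres ω := by
  rw [mem_centres]
  rintro ⟨i, hi⟩
  exact (mem_ZZs.mp hω).2.2.2 j k i hi.symm

lemma adj_apply' {n : ℕ} (G : SimpleGraph (Fin n)) [DecidableRel G.Adj] (x y : Fin n) :
    adj G x y = if G.Adj x y then 1 else 0 := by
  unfold adj
  rw [SimpleGraph.adjMatrix_apply]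
  split_ifs <;> rfl

/-- the cut matrix of the `K + 1` stars is the cut matrix of the edge system with row and column
`a` removed -/
lemma killRC_edge (ω : Om n q K) (z : ℂ) :
    killRC (cutMat (adjE ω.1 (ea ω) (eb ω)) (centres (front ω)) z) (ea ω)
      = cutMat (adj ω.1) (centres ω) z := by
  classical
  ext x y
  simp only [killRC, cutMat, mem_centres_succ]
  by_cases hx : x = ea ω
  · simp [hx]
  · by_cases hy : y = ea ω
    · simp [hy]
    · simp only [hx, hy, or_false, if_false]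
      by_cases h : x ∈ centres (front ω) ∨ y ∈ centres (front ω)
      · simp [h]
      · simp only [h, if_false]
        unfold adjE
        simp [hx, hy]

lemma adj_last {ω : Om n q K} (hω : ω ∈ ZZs n (q + 1) (K + 1)) (x : Fin n) :
    ω.1.Adj (ea ω) x ↔ ∃ k, ω.2.2 (Fin.last K) k = x :=
  ((mem_WW.mp (mem_ZZs.mp hω).1).2 (Fin.last K)).2 x

lemma leaf_inj {ω : Om n q K} (hω : ω ∈ ZZs n (q + 1) (K + 1)) :
    Function.Injective (ω.2.2 (Fin.last K)) :=
  ((mem_WW.mp (mem_ZZs.mp hω).1).2 (Fin.last K)).1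

/-- entries of `adjE` at `a` -/
lemma adjE_a {ω : Om n q K} (hω : ω ∈ ZZs n (q + 1) (K + 1)) {x : Fin n} :
    adjE ω.1 (ea ω) (eb ω) (ea ω) x
      = ∑ k : Fin q, if x = ω.2.2 (Fin.last K) k.castSucc then 1 else 0 := by
  classical
  have hab : ea ω ≠ eb ω := fun h => (mem_ZZs.mp hω).2.2.2 (Fin.last K) (Fin.last q) (Fin.last K)
    h.symm
  unfold adjE
  rw [adj_apply']
  by_cases h : ∃ k : Fin q, x = ω.2.2 (Fin.last K) k.castSucc
  · obtain ⟨k, rfl⟩ := h
    have h1 : ω.2.2 (Fin.last K) k.castSucc ≠ eb ω := by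
      intro h
      have := leaf_inj hω h
      exact (Fin.castSucc_lt_last k).ne this
    have h2 : ω.1.Adj (ea ω) (ω.2.2 (Fin.last K) k.castSucc) := (adj_last hω _).mpr ⟨_, rfl⟩
    rw [Finset.sum_eq_single k]
    · simp [h1, h2, hab]
    · intro k' _ hk'
      rw [if_neg]
      intro h
      exact hk' (Fin.castSucc_injective q (leaf_inj hω h)).symm
    · simp
  · rw [Finset.sum_eq_zero]
    · by_cases h1 : x = eb ω
      · simp [h1]
      · have h2 : ¬ ω.1.Adj (ea ω) x := by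
          rw [adj_last hω]
          rintro ⟨k, hk⟩
          refine Fin.lastCases (motive := fun k => ω.2.2 (Fin.last K) k = x → False) ?_
            (fun k hk => ?_) k hk
          · intro hk
            exact h1 hk.symm
          · exact h ⟨k, hk.symm⟩
        simp [h2]
    · intro k _
      rw [if_neg]
      intro hk
      exact h ⟨k, hk⟩

lemma adjE_symm {n : ℕ} (G : SimpleGraph (Fin n)) (a b x y : Fin n) :
    adjE G a b x y = adjE G a b y x := by
  classical
  unfold adjE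
  rw [adj_apply', adj_apply']
  have h1 : ((x = a ∧ y = b) ∨ (x = b ∧ y = a)) ↔ ((y = a ∧ x = b) ∨ (y = b ∧ x = a)) := by tauto
  simp only [h1, G.adj_comm x y]

/-- the off diagonal part of the column `a` -/
lemma offCol_edge {ω : Om n q K} (hω : ω ∈ ZZs n (q + 1) (K + 1)) (z : ℂ) (x : Fin n) :
    offCol (cutMat (adjE ω.1 (ea ω) (eb ω)) (centres (front ω)) z) (ea ω) x
      = ∑ k : Fin q, if x = ω.2.2 (Fin.last K) k.castSucc then 1 else 0 := by
  classical
  have ha := ea_notMem hω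
  unfold offCol
  by_cases hx : x = ea ω
  · rw [if_pos hx, Finset.sum_eq_zero]
    intro k _
    rw [if_neg]
    rintro rfl
    exact (mem_ZZs.mp hω).2.2.2 _ _ _ hx
  · rw [if_neg hx]
    unfold cutMat
    by_cases hD : x ∈ centres (front ω)
    · rw [if_pos (Or.inl hD), if_neg hx, Finset.sum_eq_zero]
      intro k _
      rw [if_neg]
      rintro rfl
      exact leaf_notMem hω _ _ (mem_centres_succ.mpr (Or.inl hD))
    · rw [if_neg (by tauto), if_neg hx, sub_zero, adjE_symm, adjE_a hω]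
      push_cast
      refine Finset.sum_congr rfl fun k _ => ?_
      split_ifs <;> simp

lemma offRow_edge {ω : Om n q K} (hω : ω ∈ ZZs n (q + 1) (K + 1)) (z : ℂ) (x : Fin n) :
    offRow (cutMat (adjE ω.1 (ea ω) (eb ω)) (centres (front ω)) z) (ea ω) x
      = ∑ k : Fin q, if x = ω.2.2 (Fin.last K) k.castSucc then 1 else 0 := by
  rw [← offCol_edge hω z]
  unfold offRow offCol cutMat
  rw [adjE_symm]
  simp only [or_comm, eq_comm]

lemma diag_edge {ω : Om n q K} (hω : ω ∈ ZZs n (q + 1) (K + 1)) (z : ℂ) :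
    cutMat (adjE ω.1 (ea ω) (eb ω)) (centres (front ω)) z (ea ω) (ea ω) = -z := by
  classical
  have ha := ea_notMem hω
  unfold cutMat
  rw [if_neg (by tauto), if_pos rfl]
  have : adjE ω.1 (ea ω) (eb ω) (ea ω) (ea ω) = 0 := by
    unfold adjE
    rw [adj_apply']
    simp
  rw [this]
  simp

/-- lead indices of the remaining leads -/
def oth : (Fin K × Fin (q + 1)) ⊕ Unit → Fin (K + 1) × Fin (q + 1) :=
  Sum.elim (fun p => (p.1.castSucc, p.2)) (fun _ => (Fin.last K, Fin.last q))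

/-- the remaining leads in the edge system -/
def emb : (Fin K × Fin (q + 1)) ⊕ Unit → (Fin K × Fin (q + 1)) ⊕ Fin 2 :=
  Sum.elim Sum.inl (fun _ => Sum.inr 1)

/-- lead indices of the leads of the last star that are summed -/
def sib (k : Fin q) : Fin (K + 1) × Fin (q + 1) := (Fin.last K, k.castSucc)

lemma elead_emb (ω : Om n q K) (x : (Fin K × Fin (q + 1)) ⊕ Unit) :
    elead (front ω) (ea ω) (eb ω) (emb x) = lead ω (oth x) := by
  rcases x with x | x
  · rfl
  · rfl

lemma elead_a (ω : Om n q K) : elead (front ω) (ea ω) (eb ω) (Sum.inr 0) = ea ω := rfl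

lemma lead_ne_ea {ω : Om n q K} (hω : ω ∈ ZZs n (q + 1) (K + 1)) (p : Fin (K + 1) × Fin (q + 1)) :
    lead ω p ≠ ea ω := (mem_ZZs.mp hω).2.2.2 p.1 p.2 (Fin.last K)

section entries

variable {ω : Om n q K} (hω : ω ∈ ZZs n (q + 1) (K + 1)) {z : ℂ}
  (h1 : IsUnit (cutMat (adjE ω.1 (ea ω) (eb ω)) (centres (front ω)) z).det)
  (h0 : IsUnit (cutMat (adj ω.1) (centres ω) z).det)

include hω

lemma mulVec_offCol (p : Fin (K + 1) × Fin (q + 1)) :
    (cutMat (adj ω.1) (centres ω) z)⁻¹.mulVec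
      (offCol (cutMat (adjE ω.1 (ea ω) (eb ω)) (centres (front ω)) z) (ea ω)) (lead ω p)
      = ∑ k : Fin q, leadMat ω z p (sib k) := by
  rw [Matrix.mulVec, dotProduct]
  simp_rw [offCol_edge hω, Finset.mul_sum]
  rw [Finset.sum_comm]
  refine Finset.sum_congr rfl fun k _ => ?_
  rw [Finset.sum_eq_single (ω.2.2 (Fin.last K) k.castSucc)]
  · simp only [if_true, mul_one]
    rfl
  · intro x _ hx
    rw [if_neg hx, mul_zero]
  · simp

lemma vecMul_offRow (p : Fin (K + 1) × Fin (q + 1)) :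
    ((offRow (cutMat (adjE ω.1 (ea ω) (eb ω)) (centres (front ω)) z) (ea ω)) ᵥ*
      (cutMat (adj ω.1) (centres ω) z)⁻¹) (lead ω p)
      = ∑ k : Fin q, leadMat ω z (sib k) p := by
  rw [Matrix.vecMul, dotProduct]
  simp_rw [offRow_edge hω, Finset.sum_mul]
  rw [Finset.sum_comm]
  refine Finset.sum_congr rfl fun k _ => ?_
  rw [Finset.sum_eq_single (ω.2.2 (Fin.last K) k.castSucc)]
  · simp only [if_true, one_mul]
    rfl
  · intro x _ hx
    rw [if_neg hx, zero_mul]
  · simp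

lemma offRow_dot :
    offRow (cutMat (adjE ω.1 (ea ω) (eb ω)) (centres (front ω)) z) (ea ω) ⬝ᵥ
      ((cutMat (adj ω.1) (centres ω) z)⁻¹.mulVec
      (offCol (cutMat (adjE ω.1 (ea ω) (eb ω)) (centres (front ω)) z) (ea ω)))
      = ∑ k : Fin q, ∑ k' : Fin q, leadMat ω z (sib k) (sib k') := by
  rw [dotProduct]
  simp_rw [offRow_edge hω, Finset.sum_mul]
  rw [Finset.sum_comm]
  refine Finset.sum_congr rfl fun k _ => ?_
  rw [Finset.sum_eq_single (ω.2.2 (Fin.last K) k.castSucc)]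
  · simp only [if_true, one_mul]
    exact mulVec_offCol hω (sib k)
  · intro x _ hx
    rw [if_neg hx, zero_mul]
  · simp

include h1 h0

/-- **(E2), entries** -/
theorem edge_aa : edgeMat ω z (Sum.inr 0) (Sum.inr 0)
    * (-z - ∑ k : Fin q, ∑ k' : Fin q, leadMat ω z (sib k) (sib k')) = 1 := by
  have h0' : IsUnit (killRC (cutMat (adjE ω.1 (ea ω) (eb ω)) (centres (front ω)) z)
      (ea ω)).det := by rw [killRC_edge]; exact h0
  have h := inv_diag h1 h0'
  rw [killRC_edge, diag_edge hω, offRow_dot hω] at h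
  exact h

theorem edge_xa (x : (Fin K × Fin (q + 1)) ⊕ Unit) : edgeMat ω z (emb x) (Sum.inr 0)
    = -(∑ k : Fin q, leadMat ω z (oth x) (sib k)) * edgeMat ω z (Sum.inr 0) (Sum.inr 0) := by
  have h0' : IsUnit (killRC (cutMat (adjE ω.1 (ea ω) (eb ω)) (centres (front ω)) z)
      (ea ω)).det := by rw [killRC_edge]; exact h0
  have h := inv_col h1 h0' (lead_ne_ea hω (oth x))
  rw [killRC_edge, mulVec_offCol hω] at h
  have e1 : edgeMat ω z (emb x) (Sum.inr 0)
      = (cutMat (adjE ω.1 (ea ω) (eb ω)) (centres (front ω)) z)⁻¹ (lead ω (oth x)) (ea ω) := by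
    rw [← elead_emb]; rfl
  rw [e1, h]
  rfl

theorem edge_ax (x : (Fin K × Fin (q + 1)) ⊕ Unit) : edgeMat ω z (Sum.inr 0) (emb x)
    = -(edgeMat ω z (Sum.inr 0) (Sum.inr 0)) * ∑ k : Fin q, leadMat ω z (sib k) (oth x) := by
  have h0' : IsUnit (killRC (cutMat (adjE ω.1 (ea ω) (eb ω)) (centres (front ω)) z)
      (ea ω)).det := by rw [killRC_edge]; exact h0
  have h := inv_row h1 h0' (lead_ne_ea hω (oth x))
  rw [killRC_edge, vecMul_offRow hω] at h
  have e1 : edgeMat ω z (Sum.inr 0) (emb x)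
      = (cutMat (adjE ω.1 (ea ω) (eb ω)) (centres (front ω)) z)⁻¹ (ea ω) (lead ω (oth x)) := by
    rw [← elead_emb]; rfl
  rw [e1, h]
  rfl

theorem edge_xy (x y : (Fin K × Fin (q + 1)) ⊕ Unit) : edgeMat ω z (emb x) (emb y)
    = leadMat ω z (oth x) (oth y) + edgeMat ω z (Sum.inr 0) (Sum.inr 0)
      * (∑ k : Fin q, leadMat ω z (oth x) (sib k))
      * ∑ k : Fin q, leadMat ω z (sib k) (oth y) := by
  have h0' : IsUnit (killRC (cutMat (adjE ω.1 (ea ω) (eb ω)) (centres (front ω)) z)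
      (ea ω)).det := by rw [killRC_edge]; exact h0
  have h := inv_entry h1 h0' (lead_ne_ea hω (oth x)) (lead_ne_ea hω (oth y))
  rw [killRC_edge, vecMul_offRow hω, mulVec_offCol hω] at h
  have e1 : edgeMat ω z (emb x) (emb y)
      = (cutMat (adjE ω.1 (ea ω) (eb ω)) (centres (front ω)) z)⁻¹ (lead ω (oth x))
        (lead ω (oth y)) := by
    rw [← elead_emb, ← elead_emb]; rfl
  rw [e1, h]
  rfl

end entries

end

end Vale.Agent.P156.H917
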