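import Vale.Agent.P156.H917.E3p
import Vale.Agent.P156.H144.SpecXBase
import Vale.Agent.P156.H167.SpecX
import Vale.Agent.P156.H167.Chain
import Vale.Agent.P156.G.Coe
import Vale.Agent.P156.H490.Schur

/-!
Block F4: from the leads to the centres.
-/

open Matrix MeasureTheory Filter Topology
open scoped ComplexConjugate

namespace Vale.Agent.P156.H917

open Vale.Agent.P156

noncomputable section

variable {n d K : ℕ}

/-! ### (a) the centres as a function of the compressed leads -/

/-- the isometry from the centres to the leads -/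
def Pst (K d : ℕ) : Matrix (Fin K × Fin d) (Fin K) ℝ :=
  fun p j => if p.1 = j then (Real.sqrt d)⁻¹ else 0

lemma sqrt_inv_mul (hd : 0 < d) : (Real.sqrt d)⁻¹ * (Real.sqrt d)⁻¹ * d = 1 := by
  have h : (0 : ℝ) < d := by exact_mod_cast hd
  have h1 : Real.sqrt d * Real.sqrt d = d := Real.mul_self_sqrt h.le
  have h2 : Real.sqrt d ≠ 0 := (Real.sqrt_pos.mpr h).ne'
  field_simp
  rw [pow_two, h1]

lemma Pst_isometry (hd : 0 < d) : (Pst K d)ᵀ * Pst K d = 1 := by
  ext i j
  rw [Matrix.mul_apply, Fintype.sum_prod_type]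
  simp only [Matrix.transpose_apply, Pst]
  rw [Finset.sum_eq_single i]
  · simp only [if_true]
    by_cases hij : i = j
    · subst hij
      simp only [if_true, Finset.sum_const, Finset.card_univ, Fintype.card_fin, nsmul_eq_mul,
        Matrix.one_apply_eq]
      have := sqrt_inv_mul hd
      linarith
    · simp [hij, Matrix.one_apply_ne hij]
  · intro k _ hk
    simp [hk]
  · simp

lemma Pst_compress (hd : 0 < d) (M : Matrix (Fin K × Fin d) (Fin K × Fin d) ℂ) (i j : Fin K) :
    (d : ℂ) * ((A.toC (Pst K d))ᵀ * M * A.toC (Pst K d)) i j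
      = ∑ k : Fin d, ∑ k' : Fin d, M (i, k) (j, k') := by
  set s : ℂ := (((Real.sqrt d)⁻¹ : ℝ) : ℂ) with hs
  have hsd : s * s * d = 1 := by
    rw [hs]
    exact_mod_cast congrArg (fun x : ℝ => (x : ℂ)) (sqrt_inv_mul hd)
  have h1 : ∀ (p : Fin K × Fin d) (j : Fin K), A.toC (Pst K d) p j = if p.1 = j then s else 0 := by
    intro p j
    rw [A.toC_apply, Pst, hs]
    split_ifs <;> simp
  have h2 : ∀ q : Fin K × Fin d, ((A.toC (Pst K d))ᵀ * M) i q = s * ∑ k, M (i, k) q := by
    intro q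
    rw [Matrix.mul_apply, Fintype.sum_prod_type, Finset.sum_eq_single i]
    · simp only [Matrix.transpose_apply, h1, if_true, Finset.mul_sum]
    · intro b _ hb
      simp only [Matrix.transpose_apply, h1, if_neg hb, zero_mul, Finset.sum_const_zero]
    · simp
  rw [Matrix.mul_apply, Fintype.sum_prod_type, Finset.sum_eq_single j]
  · simp only [h1, h2, if_true]
    rw [Finset.sum_comm]
    have h3 : ∀ x : Fin d, s * (∑ k, M (i, k) (j, x)) * s = (s * s) * ∑ k, M (i, k) (j, x) := by
      intro x; ring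
    rw [Finset.sum_congr rfl fun x _ => h3 x, ← Finset.mul_sum, ← mul_assoc, mul_comm (d : ℂ), hsd,
      one_mul]
  · intro b _ hb
    simp only [h1, if_neg hb, mul_zero, Finset.sum_const_zero]
  · simp

/-- the phase -/
def kapE (d : ℕ) (E : ℝ) : ℂ := ((E : ℂ) + d * conj (mE d E)) / ((E : ℂ) + d * mE d E)

theorem cay_centreMat {ω : SimpleGraph (Fin n) × StarPos n d K} (hω : ω ∈ ZZs n d K) {E : ℝ}
    (hd : 0 < d) (hm : (mE d E).im ≠ 0)
    (h0 : IsUnit (cutMat (adj ω.1) ∅ (E : ℂ)).det)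
    (hD : IsUnit (cutMat (adj ω.1) (centres ω) (E : ℂ)).det) :
    cay (mdE d E) (centreMat ω (E : ℂ))
      = kapE d E • cay (mE d E) ((A.toC (Pst K d))ᵀ * leadMat ω (E : ℂ) * A.toC (Pst K d)) := by
  set T := (A.toC (Pst K d))ᵀ * leadMat ω (E : ℂ) * A.toC (Pst K d) with hT
  have hTH : Tᴴ = T := by
    rw [hT, conjTranspose_mul, conjTranspose_mul, (A.leadMat_realSymm ω E).1,
      A.toC_conjTranspose, ← A.toC_conjTranspose, conjTranspose_conjTranspose, Matrix.mul_assoc,
      A.toC_conjTranspose]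
  have hu := H490.isUnit_centreMat hω h0 hD
  have hinv : (centreMat ω (E : ℂ))⁻¹ = -((E : ℂ) • (1 : Matrix (Fin K) (Fin K) ℂ)
      + ((d : ℝ) : ℂ) • T) := by
    ext i j
    rw [H490.centreMat_inv hω h0 hD, Matrix.neg_apply, Matrix.add_apply, Matrix.smul_apply,
      Matrix.smul_apply, smul_eq_mul, smul_eq_mul, Matrix.one_apply, Complex.ofReal_natCast,
      Pst_compress hd]
    congr 2
    split_ifs <;> simp
  have hu2 : IsUnit ((E : ℂ) • (1 : Matrix (Fin K) (Fin K) ℂ) + ((d : ℝ) : ℂ) • T).det := by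
    have h1 : IsUnit ((centreMat ω (E : ℂ))⁻¹).det := (isUnit_nonsing_inv_det_iff).mpr hu
    rw [hinv] at h1
    rw [Matrix.det_neg] at h1
    exact isUnit_of_mul_isUnit_right h1
  have hG : centreMat ω (E : ℂ) = -((E : ℂ) • (1 : Matrix (Fin K) (Fin K) ℂ)
      + ((d : ℝ) : ℂ) • T)⁻¹ := by
    rw [← Matrix.nonsing_inv_nonsing_inv _ hu, hinv]
    apply Matrix.inv_eq_right_inv
    rw [Matrix.neg_mul, Matrix.mul_neg, neg_neg, Matrix.mul_nonsing_inv _ hu2]
  have h3 := A.cay_centre (d := (d : ℝ)) (E := E) hm (by exact_mod_cast hd.ne') hTH hu2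
  rw [hG]
  unfold mdE kapE
  rw [Complex.ofReal_natCast] at h3 ⊢
  exact h3

lemma denom_ne {E : ℝ} (hd : 0 < d) (hm : (mE d E).im ≠ 0) : (E : ℂ) + d * mE d E ≠ 0 := by
  intro h
  have := congrArg Complex.im h
  rw [Complex.add_im, Complex.ofReal_im, zero_add, Complex.mul_im, Complex.natCast_re,
    Complex.natCast_im, zero_mul, add_zero, Complex.zero_im] at this
  rcases mul_eq_zero.mp this with h | h
  · exact hd.ne' (by exact_mod_cast h)
  · exact hm h

/-- the phase as a point of the circle -/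
def kapC (d : ℕ) (E : ℝ) (hd : 0 < d) (hm : (mE d E).im ≠ 0) : Circle :=
  Circle.ofConjDivSelf ((E : ℂ) + d * mE d E) (denom_ne hd hm)

lemma kapC_coe {E : ℝ} (hd : 0 < d) (hm : (mE d E).im ≠ 0) :
    ((kapC d E hd hm : Circle) : ℂ) = kapE d E := by
  unfold kapC kapE
  have h : ((Circle.ofConjDivSelf ((E : ℂ) + d * mE d E) (denom_ne hd hm) : Circle) : ℂ)
      = conj ((E : ℂ) + d * mE d E) / ((E : ℂ) + d * mE d E) := rfl
  rw [h]
  congr 1
  simp

lemma mdE_im_ne {E : ℝ} (hd : 0 < d) (hm : (mE d E).im ≠ 0) : (mdE d E).im ≠ 0 := by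
  unfold mdE
  have h1 := denom_ne hd hm
  rw [neg_div, Complex.neg_im, one_div, Complex.inv_im, Complex.add_im, Complex.ofReal_im,
    zero_add, Complex.mul_im, Complex.natCast_re, Complex.natCast_im, zero_mul, add_zero]
  intro h
  have h2 : Complex.normSq ((E : ℂ) + d * mE d E) ≠ 0 := (Complex.normSq_pos.mpr h1).ne'
  rw [neg_eq_zero, neg_div, neg_eq_zero, div_eq_zero_iff] at h
  rcases h with h | h
  · rcases mul_eq_zero.mp h with h | h
    · exact hd.ne' (by exact_mod_cast h)
    · exact hm h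
  · exact h2 h

/-! ### Scalars -/

lemma isInducing_coe_circle : Topology.IsInducing (fun z : Circle => (z : ℂ)) :=
  ⟨rfl⟩

lemma continuous_coe_circle : Continuous (fun z : Circle => (z : ℂ)) :=
  isInducing_coe_circle.continuous

section scal

variable {ι : Type} [Fintype ι] [DecidableEq ι]

lemma scal_mem (θ : Circle) {S : Matrix ι ι ℂ} (hS : S ∈ F.symU ι) : (θ : ℂ) • S ∈ F.symU ι := by
  refine ⟨?_, ?_⟩
  · rw [mem_unitaryGroup_iff, star_smul, Matrix.smul_mul, Matrix.mul_smul, smul_smul,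
      mem_unitaryGroup_iff.mp hS.1]
    rw [Complex.star_def, Complex.mul_conj, Circle.normSq_coe]
    simp
  · rw [transpose_smul, hS.2]

/-- multiplication by a phase -/
def scal (θ : Circle) (S : F.SymU ι) : F.SymU ι := ⟨(θ : ℂ) • S.1, scal_mem θ S.2⟩

lemma continuous_scal : Continuous (fun p : Circle × F.SymU ι => scal p.1 p.2) := by
  refine Continuous.subtype_mk ?_ _
  exact (continuous_coe_circle.comp continuous_fst).smul
    (continuous_subtype_val.comp continuous_snd)

lemma scal_smul (θ : Circle) (U : unitaryGroup ι ℂ) (S : F.SymU ι) :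
    U • scal θ S = scal θ (U • S) := by
  apply Subtype.ext
  rw [F.coe_smul]
  change U.1 * ((θ : ℂ) • S.1) * U.1ᵀ = (θ : ℂ) • (U.1 * S.1 * U.1ᵀ)
  rw [Matrix.mul_smul, Matrix.smul_mul]

lemma measurable_scal (θ : Circle) : Measurable (fun S : F.SymU ι => scal θ S) :=
  (continuous_scal.comp (continuous_const.prodMk continuous_id)).measurable

lemma InvBy_scal {H : Measure (F.SymU ι)} (θ : Circle) {U : unitaryGroup ι ℂ}
    (h : F.InvBy H U) : F.InvBy (H.map (scal θ)) U := by
  unfold F.InvBy at h ⊢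
  rw [Measure.map_map (F.measurable_smul _) (measurable_scal θ)]
  have h1 : (fun S : F.SymU ι => U • S) ∘ scal θ = scal θ ∘ (fun S => U • S) := by
    ext1 S
    exact scal_smul θ U S
  rw [h1, ← Measure.map_map (measurable_scal θ) (F.measurable_smul _), h]

end scal

/-! ### The limit law of the centres -/

variable {𝒰 : Ultrafilter ℕ} {E : ℕ → ℝ} {E₀ : ℝ}

theorem centre_UInv (hG : GoodSeq d 𝒰 E E₀) (hZW : SpecZW d) (hX : H167.SpecX d) (hK : 2 ≤ K)
    {ν : Measure (F.SymU (Fin K))} [IsProbabilityMeasure ν]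
    (hν : Lim.IsLimitLaw (𝒰 : Filter ℕ) (fun n => WW n d K)
      (fun n ω => H167.toSU (cay (mdE d (E n)) (centreMat ω (E n : ℂ)))) ν) : H167.UInv ν := by
  classical
  have hd : 0 < d := by have := hG.three; omega
  have hs := H144.good_nonempty hG K
  obtain ⟨Λ, hΛp, hΛ⟩ := Lim.exists_isLimitLaw 𝒰 (fun n => WW n d K)
    (fun n ω => H167.toSU (SX (E n) ω)) hs
  have hΛU : H167.UInv Λ := hX 𝒰 E E₀ hG K hK Λ hΛ
  have hm : ∀ᶠ n in (𝒰 : Filter ℕ), (mE d (E n)).im ≠ 0 := by
    filter_upwards [H144.good_im_pos hG] with n hn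
    exact hn.ne'
  have hR : ∀ᶠ n in (𝒰 : Filter ℕ), ∀ ω ∈ WW n d K, A.RealSymm (leadMat ω (E n : ℂ)) :=
    Eventually.of_forall fun n ω _ => A.leadMat_realSymm ω (E n)
  obtain ⟨H, hHp, hH, hHU⟩ := H167.compress_UInv hs hm (Pst K d) (Pst_isometry hd)
    (by rw [Fintype.card_fin]; omega)
    (by
      rw [Fintype.card_prod, Fintype.card_fin, Fintype.card_fin]
      have := hG.three
      nlinarith) hR hΛ hΛU
  have hm0 : (mE d E₀).im ≠ 0 := (H144.good_im_pos_lim hG).ne'
  set κ₀ : Circle := kapC d E₀ hd hm0 with hκ₀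
  set θ : ℕ → Circle := fun n => if h : (mE d (E n)).im ≠ 0 then kapC d (E n) hd h else κ₀
    with hθdef
  have hθ : Tendsto θ (𝒰 : Filter ℕ) (𝓝 κ₀) := by
    rw [isInducing_coe_circle.tendsto_nhds_iff]
    have h1 : Tendsto (fun n => kapE d (E n)) (𝒰 : Filter ℕ) (𝓝 (kapE d E₀)) := by
      unfold kapE
      have h2 := H144.good_tendsto_mE hG
      have h3 : Tendsto (fun n => ((E n : ℝ) : ℂ)) (𝒰 : Filter ℕ) (𝓝 (E₀ : ℂ)) :=
        (Complex.continuous_ofReal.tendsto E₀).comp hG.lim
      refine Tendsto.div (h3.add (Tendsto.const_mul _ ?_)) (h3.add (h2.const_mul _))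
        (denom_ne hd hm0)
      exact (Complex.continuous_conj.tendsto _).comp h2
    rw [hκ₀, kapC_coe]
    refine h1.congr' ?_
    filter_upwards [hm] with n hn
    have h2 : θ n = kapC d (E n) hd hn := by
      rw [hθdef]
      exact dif_pos hn
    change _ = ((θ n : Circle) : ℂ)
    rw [h2, kapC_coe]
  have hν2 : Lim.IsLimitLaw (𝒰 : Filter ℕ) (fun n => WW n d K)
      (fun n ω => H167.toSU (cay (mdE d (E n)) (centreMat ω (E n : ℂ)))) (H.map (scal κ₀)) := by
    intro G
    rw [integral_map (measurable_scal _).aemeasurable G.continuous.measurable.aestronglyMeasurable]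
    refine H167.transfer (A := F.SymU (Fin K)) (B := F.SymU (Fin K)) (Θ := Circle)
      (fun n => WW n d K)
      (fun n ω => H167.toSU (cay (mE d (E n))
        ((A.toC (Pst K d))ᵀ * leadMat ω (E n : ℂ) * A.toC (Pst K d))))
      (fun n ω => H167.toSU (cay (mdE d (E n)) (centreMat ω (E n : ℂ)))) H
      (fun F' => hH (BoundedContinuousFunction.mkOfCompact F'))
      (fun n ω => ω ∉ ZZs n d K) (H144.good_ZZ hZW hG K)
      θ κ₀ hθ (fun p => scal p.1 p.2) Set.univ isOpen_univ
      continuous_scal.continuousOn ?_ ?_ G.toContinuousMap ?_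
    · simp
    · filter_upwards [hm, hG.nonsing] with n hn hns ω hω hbad _
      have hZ : ω ∈ ZZs n d K := not_not.1 hbad
      have hreg := (H490.mem_WW.1 hω).1
      have h2 : θ n = kapC d (E n) hd hn := by
        rw [hθdef]
        exact dif_pos hn
      have h3 := cay_centreMat hZ hd hn (hns _ hreg ∅) (hns _ hreg (centres ω))
      have hTR : A.RealSymm ((A.toC (Pst K d))ᵀ * leadMat ω (E n : ℂ) * A.toC (Pst K d)) := by
        have hL := A.leadMat_realSymm ω (E n)
        constructor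
        · rw [conjTranspose_mul, conjTranspose_mul, hL.1,
            A.toC_conjTranspose, ← A.toC_conjTranspose, conjTranspose_conjTranspose,
            Matrix.mul_assoc, A.toC_conjTranspose]
        · rw [transpose_mul, transpose_mul, hL.2, transpose_transpose, Matrix.mul_assoc]
      apply Subtype.ext
      rw [H167.coe_toSU (H167.cay_mem_symU (mdE_im_ne hd hn) (A.centreMat_realSymm ω (E n)))]
      change _ = ((θ n : Circle) : ℂ) • (H167.toSU (cay (mE d (E n))
        ((A.toC (Pst K d))ᵀ * leadMat ω (E n : ℂ) * A.toC (Pst K d)))).1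
      rw [H167.coe_toSU (H167.cay_mem_symU hn hTR), h2, kapC_coe, h3]
    · exact (G.continuous.measurable.comp (measurable_scal κ₀))
  have : IsProbabilityMeasure (H.map (scal κ₀)) :=
    Measure.isProbabilityMeasure_map (measurable_scal _).aemeasurable
  rw [hν.unique hν2]
  intro U
  exact InvBy_scal κ₀ (hHU U)

/-- the limit law of one centre -/
theorem centre_UInv_one (hG : GoodSeq d 𝒰 E E₀) (hZW : SpecZW d) (hX : H167.SpecX d)
    {ν : Measure (F.SymU (Fin 1))} [IsProbabilityMeasure ν]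
    (hν : Lim.IsLimitLaw (𝒰 : Filter ℕ) (fun n => WW n d 1)
      (fun n ω => H167.toSU (cay (mdE d (E n)) (centreMat ω (E n : ℂ)))) ν) : H167.UInv ν := by
  classical
  have hd : 0 < d := by have := hG.three; omega
  have hs := H144.good_nonempty hG 2
  obtain ⟨Λ, hΛp, hΛ⟩ := Lim.exists_isLimitLaw 𝒰 (fun n => WW n d 2)
    (fun n ω => H167.toSU (cay (mdE d (E n)) (centreMat ω (E n : ℂ)))) hs
  have hΛU : H167.UInv Λ := centre_UInv hG hZW hX le_rfl hΛ
  have hm : ∀ᶠ n in (𝒰 : Filter ℕ), (mdE d (E n)).im ≠ 0 := by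
    filter_upwards [H144.good_im_pos hG] with n hn
    exact mdE_im_ne hd hn.ne'
  have hR : ∀ᶠ n in (𝒰 : Filter ℕ), ∀ ω ∈ WW n d 2, A.RealSymm (centreMat ω (E n : ℂ)) :=
    Eventually.of_forall fun n ω _ => A.centreMat_realSymm ω (E n)
  obtain ⟨P, hP0, hP1⟩ : ∃ P : Matrix (Fin 2) (Fin 1) ℝ, P 0 0 = 1 ∧ P 1 0 = 0 :=
    ⟨fun i _ => if i = 0 then 1 else 0, if_pos rfl, if_neg (by decide)⟩
  have hP : Pᵀ * P = 1 := by
    ext i j
    fin_cases i
    fin_cases j
    rw [Matrix.mul_apply, Fin.sum_univ_two]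
    simp [hP0, hP1]
  obtain ⟨H, hHp, hH, hHU⟩ := H167.compress_UInv hs hm P hP (by simp) (by simp) hR hΛ hΛU
  have hcomp : ∀ (n : ℕ) (ω : SimpleGraph (Fin n) × StarPos n d 2),
      (A.toC P)ᵀ * centreMat ω (E n : ℂ) * A.toC P = centreMat (front' ω) (E n : ℂ) := by
    intro n ω
    ext i j
    fin_cases i
    fin_cases j
    have e1 : A.toC P 0 0 = 1 := by rw [A.toC_apply, hP0, Complex.ofReal_one]
    have e2 : A.toC P 1 0 = 0 := by rw [A.toC_apply, hP1, Complex.ofReal_zero]
    change ((A.toC P)ᵀ * centreMat ω (E n : ℂ) * A.toC P) 0 0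
      = centreMat (front' ω) (E n : ℂ) 0 0
    rw [Matrix.mul_apply, Fin.sum_univ_two, e1, e2, mul_zero, add_zero, mul_one, Matrix.mul_apply,
      Fin.sum_univ_two, Matrix.transpose_apply, Matrix.transpose_apply, e1, e2, zero_mul,
      add_zero, one_mul]
    rfl
  have hH2 : Lim.IsLimitLaw (𝒰 : Filter ℕ) (fun n => WW n d 1)
      (fun n ω => H167.toSU (cay (mdE d (E n)) (centreMat ω (E n : ℂ)))) H := by
    intro G
    refine (hH G).congr' ?_
    filter_upwards [hG.even] with n hn
    simp only [hcomp]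
    exact avg_front (d := d) (K := 1) (by omega)
      (fun ω => G (H167.toSU (cay (mdE d (E n)) (centreMat ω (E n : ℂ)))))
  rw [hν.unique hH2]
  exact hHU

/-- **Block F4.** -/
theorem specS_of_specX (hX : H167.SpecX d) (hZW : SpecZW d) : SpecS d := by
  classical
  intro 𝒰 E E₀ hG K c hc G
  have hs := H144.good_nonempty hG K
  rcases Nat.eq_zero_or_pos K with hK | hK
  · subst hK
    have h1 : ∀ S : SymU (Fin 0), S = toSymU 1 := fun S => Subtype.ext (Subsingleton.elim _ _)
    have h2 : G = (G (toSymU 1)) • (1 : C(SymU (Fin 0), ℝ)) := by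
      ext S
      rw [h1 S]
      simp
    have h3 : c G = G (toSymU 1) := by
      rw [h2, hc.2.2.1, hc.1]
      simp
    rw [h3]
    refine tendsto_const_nhds.congr' ?_
    filter_upwards [hs] with n hn
    have h4 : ∀ ω : SimpleGraph (Fin n) × StarPos n d 0,
        G (toSymU (cay (mdE d (E n)) (centreMat ω (E n : ℂ)))) = G (toSymU 1) := by
      intro ω
      rw [h1 (toSymU (cay (mdE d (E n)) (centreMat ω (E n : ℂ))))]
    simp only [h4]
    exact (Lim.avg_const hn _).symm
  · obtain ⟨ν, hνp, hν⟩ := Lim.exists_isLimitLaw 𝒰 (fun n => WW n d K)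
      (fun n ω => H167.toSU (cay (mdE d (E n)) (centreMat ω (E n : ℂ)))) hs
    have hU : H167.UInv ν := by
      by_cases h1 : K = 1
      · subst h1
        exact centre_UInv_one hG hZW hX hν
      · exact centre_UInv hG hZW hX (by omega) hν
    have h2 := (H167.isLimitLaw_iff.1 hν) G
    have h3 := Vale.Agent.P156.G.integral_eq_of_isCOE ν hU hc G
    rw [← h3]
    exact h2

end

end Vale.Agent.P156.H917
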