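import Vale.Agent.P156.H917.F4
import Vale.Agent.P156.H167.SpecXMain
import Vale.Agent.P156.H12.Final
import Vale.Agent.P156.H814.TII
import Vale.Agent.P156.H653.Final
import Vale.Agent.P156.H943.PartC
import Vale.Agent.P156.H849.Chain

/-!
Unconditional conclusions.
-/

namespace Vale.Agent.P156.H917

open Vale.Agent.P156

variable {d : ℕ}

theorem waveOfEntropy : H814.WaveOfEntropy := by
  intro q k lam hq hlam mu _ mue he hs h2 hsupp t0 ht0 hF
  exact H653.wave_of_entropy hq hlam mu mue he hs h2 hsupp ht0 hF

theorem specTII (hd : 3 ≤ d) : SpecTII d := H814.specTII waveOfEntropy hd (H943.specFix hd)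

theorem specOInv (hd : 3 ≤ d) : SpecOInv d := H12.specOInv_of_TII (specTII hd)

theorem specS (hd : 3 ≤ d) : SpecS d :=
  specS_of_specX (H167.specX (specOInv hd) (B.specZW d)) (B.specZW d)

/-- energy averaged bulk universality -/
theorem target (hd : 3 ≤ d) : Target d := H849.target_of hd (H943.specLL hd) (specS hd)

end Vale.Agent.P156.H917
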